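import Vale.Agent.P361.LRO.Fin.BridgeA

/-! # The swap form of the spin-1/2 model on the torus -/

namespace Vale.Agent.P361.LRO

open Matrix Finset Filter Topology

section torus

variable {n : ℕ}

theorem single_one_inj (hn : 1 < n) {i j : Fin 3}
    (h : (Pi.single i 1 : Fin 3 → ZMod n) = Pi.single j 1) : i = j := by
  have : Fact (1 < n) := ⟨hn⟩
  by_contra hij
  have := congrFun h i
  rw [Pi.single_eq_same, Pi.single_eq_of_ne hij] at this
  exact one_ne_zero this

theorem single_one_add_ne (hn : 3 ≤ n) (i j : Fin 3) :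
    (Pi.single i 1 : Fin 3 → ZMod n) + Pi.single j 1 ≠ 0 := by
  have : Fact (1 < n) := ⟨by omega⟩
  intro h
  have h1 := congrFun h i
  rw [Pi.add_apply, Pi.single_eq_same, Pi.zero_apply] at h1
  by_cases hij : i = j
  · subst hij
    rw [Pi.single_eq_same] at h1
    have h2 : ((2 : ℕ) : ZMod n) = 0 := by
      rw [← h1]; norm_num
    rw [ZMod.natCast_eq_zero_iff] at h2
    have := Nat.le_of_dvd (by norm_num) h2
    omega
  · rw [Pi.single_eq_of_ne hij, add_zero] at h1
    exact one_ne_zero h1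

theorem torusAdj_iff_single (x y : Fin 3 → ZMod n) :
    torusAdj n x y ↔ ∃ i, y = x + Pi.single i 1 ∨ x = y + Pi.single i 1 := by
  have key : ∀ (i : Fin 3) (u v : Fin 3 → ZMod n),
      (u i = v i + 1 ∧ ∀ j, j ≠ i → u j = v j) ↔ u = v + Pi.single i 1 := by
    intro i u v
    constructor
    · rintro ⟨h1, h2⟩
      funext j
      by_cases hj : j = i
      · subst hj
        rw [Pi.add_apply, Pi.single_eq_same, h1]
      · rw [Pi.add_apply, Pi.single_eq_of_ne hj, add_zero, h2 j hj]
    · rintro rfl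
      refine ⟨by rw [Pi.add_apply, Pi.single_eq_same], fun j hj => ?_⟩
      rw [Pi.add_apply, Pi.single_eq_of_ne hj, add_zero]
  unfold torusAdj
  refine exists_congr fun i => ?_
  rw [← key i y x, ← key i x y]
  constructor
  · rintro ⟨h1 | h1, h2⟩
    · exact Or.inr ⟨h1, h2⟩
    · exact Or.inl ⟨h1, fun j hj => (h2 j hj).symm⟩
  · rintro (⟨h1, h2⟩ | ⟨h1, h2⟩)
    · exact ⟨Or.inr h1, fun j hj => (h2 j hj).symm⟩
    · exact ⟨Or.inl h1, h2⟩

theorem ite_torusAdj (hn : 3 ≤ n) {M : Type*} [AddCommMonoid M] (x y : Fin 3 → ZMod n) (m : M) :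
    (if torusAdj n x y then m else 0) =
      (∑ i : Fin 3, if y = x + Pi.single i 1 then m else 0) +
        ∑ i : Fin 3, if x = y + Pi.single i 1 then m else 0 := by
  have hn1 : 1 < n := by omega
  by_cases h : torusAdj n x y
  · rw [if_pos h]
    rw [torusAdj_iff_single] at h
    obtain ⟨i, rfl | rfl⟩ := h
    · have e1 : ∀ j : Fin 3, (if x + Pi.single i 1 = x + Pi.single j (1 : ZMod n) then m else 0) =
          if j = i then m else 0 := by
        intro j
        by_cases hj : j = i
        · subst hj; simp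
        · rw [if_neg hj, if_neg]
          intro h2
          exact hj (single_one_inj hn1 (add_left_cancel h2)).symm
      have e2 : ∀ j : Fin 3, (if x = x + Pi.single i 1 + Pi.single j (1 : ZMod n) then m else 0) =
          0 := by
        intro j
        rw [if_neg]
        intro h2
        apply single_one_add_ne hn i j
        rw [add_assoc] at h2
        exact (left_eq_add.1 h2)
      simp only [e1, e2, Finset.sum_const_zero, add_zero, Finset.sum_ite_eq', Finset.mem_univ,
        if_true]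
    · have e1 : ∀ j : Fin 3, (if y + Pi.single i 1 = y + Pi.single j (1 : ZMod n) then m else 0) =
          if j = i then m else 0 := by
        intro j
        by_cases hj : j = i
        · subst hj; simp
        · rw [if_neg hj, if_neg]
          intro h2
          exact hj (single_one_inj hn1 (add_left_cancel h2)).symm
      have e2 : ∀ j : Fin 3, (if y = y + Pi.single i 1 + Pi.single j (1 : ZMod n) then m else 0) =
          0 := by
        intro j
        rw [if_neg]
        intro h2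
        apply single_one_add_ne hn i j
        rw [add_assoc] at h2
        exact (left_eq_add.1 h2)
      simp only [e1, e2, Finset.sum_const_zero, zero_add, Finset.sum_ite_eq', Finset.mem_univ,
        if_true]
  · rw [if_neg h]
    rw [torusAdj_iff_single] at h
    push Not at h
    rw [Finset.sum_eq_zero fun i _ => if_neg (h i).1, Finset.sum_eq_zero fun i _ => if_neg (h i).2,
      add_zero]

theorem sum_torusAdj [NeZero n] (hn : 3 ≤ n) {M : Type*} [AddCommMonoid M]
    (f : (Fin 3 → ZMod n) → (Fin 3 → ZMod n) → M) :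
    (∑ x, ∑ y, if torusAdj n x y then f x y else 0) =
      (∑ z : (Fin 3 → ZMod n) × Fin 3, f z.1 (z.1 + Pi.single z.2 1)) +
        ∑ z : (Fin 3 → ZMod n) × Fin 3, f (z.1 + Pi.single z.2 1) z.1 := by
  simp only [ite_torusAdj hn, Finset.sum_add_distrib, Fintype.sum_prod_type]
  congr 1
  · refine Finset.sum_congr rfl fun x _ => ?_
    rw [Finset.sum_comm]
    refine Finset.sum_congr rfl fun i _ => ?_
    rw [Finset.sum_ite_eq' Finset.univ (x + Pi.single i 1) (fun y => f x y), if_pos (mem_univ _)]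
  · rw [Finset.sum_comm]
    refine Finset.sum_congr rfl fun y _ => ?_
    rw [Finset.sum_comm]
    refine Finset.sum_congr rfl fun i _ => ?_
    rw [Finset.sum_ite_eq' Finset.univ (y + Pi.single i 1) (fun x => f x y), if_pos (mem_univ _)]

theorem sum_edges [NeZero n] {M : Type*} [AddCommMonoid M] (f : Tor n × Tor n → M) :
    ((edges n).map f).sum = ∑ z : (Fin 3 → ZMod n) × Fin 3, f (z.1, z.1 + Pi.single z.2 1) := by
  rw [edges, List.map_map, Finset.sum_map_toList]
  rfl

end torus

section gen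

variable {V : Type} [Fintype V] [DecidableEq V]

theorem exp_add_smul_one {ι : Type*} [Fintype ι] [DecidableEq ι] (X : Matrix ι ι ℂ) (k : ℝ) :
    NormedSpace.exp (X + (k : ℂ) • (1 : Matrix ι ι ℂ)) =
      ((Real.exp k : ℝ) : ℂ) • NormedSpace.exp X := by
  have hcomm : Commute X ((k : ℂ) • (1 : Matrix ι ι ℂ)) :=
    (Commute.one_right X).smul_right (k : ℂ)
  have h : (k : ℂ) • (1 : Matrix ι ι ℂ) = diagonal (fun _ => (k : ℂ)) := by
    ext i j
    by_cases hij : i = j
    · subst hij; simp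
    · simp [hij]
  rw [Matrix.exp_add_of_commute _ _ hcomm, h, Matrix.exp_diagonal]
  have h2 : diagonal (NormedSpace.exp fun _ : ι => (k : ℂ)) =
      ((Real.exp k : ℝ) : ℂ) • (1 : Matrix ι ι ℂ) := by
    ext i j
    by_cases hij : i = j
    · subst hij; simp [Pi.exp_def, ← Complex.exp_eq_exp_ℂ]
    · simp [hij]
  rw [h2, Matrix.mul_smul, Matrix.mul_one]

theorem cM_hM {x y : V} (hxy : x ≠ y) :
    cM (hM x y) = (1 / 4 : ℂ) • (1 : Matrix (V → Fin 2) (V → Fin 2) ℂ) -
      ∑ a : Fin 3, siteOpV x (spin 1 a) * siteOpV y (spin 1 a) := by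
  have h1 := cM_swap hxy
  unfold hM
  rw [cM_smul, cM_sub, cM_one, h1]
  push_cast
  module

theorem siteDot_comm {x y : V} (hxy : x ≠ y) :
    ∑ a : Fin 3, siteOpV y (spin 1 a) * siteOpV x (spin 1 a) =
      ∑ a : Fin 3, siteOpV x (spin 1 a) * siteOpV y (spin 1 a) :=
  Finset.sum_congr rfl fun _ _ => siteOpV_commute hxy.symm _ _

theorem rho_eq_gib [Nonempty V] (L : List (V × V)) (β : ℝ) (h : V → ℝ) (x : V)
    (hZ : Matrix.trace (NormedSpace.exp (-β • ham L h)) ≠ 0) :
    1 / 2 - rho L β h x = gib L β h ((1 / 2 : ℝ) • szM x) := by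
  unfold rho gib
  rw [smul_sub, Matrix.mul_sub, Matrix.trace_sub, Matrix.mul_smul, Matrix.mul_one,
    Matrix.trace_smul, smul_eq_mul, Matrix.mul_smul, Matrix.trace_smul, smul_eq_mul]
  field_simp
  ring

end gen

section final

variable {n : ℕ} [NeZero n]

theorem expoV_eq_cM (hn : 3 ≤ n) (β h : ℝ) :
    expoV 1 (torusAdj n) β h = cM (-β • ham (edges n) (fun _ => h)) +
      ((β / 4 * (Fintype.card (Tor n × Fin 3)) : ℝ) : ℂ) •
        (1 : Matrix (Tor n → Fin 2) (Tor n → Fin 2) ℂ) := by
  have hn1 : 1 < n := by omega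
  have hne : ∀ z : Tor n × Fin 3, z.1 ≠ z.1 + Pi.single z.2 1 := by
    intro z hz
    have : Fact (1 < n) := ⟨hn1⟩
    have h2 : (Pi.single z.2 1 : Tor n) = 0 := (left_eq_add.1 hz)
    have h3 := congrFun h2 z.2
    rw [Pi.single_eq_same, Pi.zero_apply] at h3
    exact one_ne_zero h3
  have hM : Model.magnetization 1 (Tor n) = cM (∑ x : Tor n, (1 / 2 : ℝ) • szM x) := by
    have hM : Model.magnetization 1 (Tor n) = ∑ x : Tor n, siteOpV x (spin 1 2) := rfl
    rw [hM, cM_sum]
    refine Finset.sum_congr rfl fun x _ => ?_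
    rw [cM_smul, cM_sz]
    push_cast
    module
  have hH : Model.hamiltonian 1 (torusAdj n) =
      -∑ z : Tor n × Fin 3, ∑ a : Fin 3, siteOpV z.1 (spin 1 a) *
        siteOpV (z.1 + Pi.single z.2 1) (spin 1 a) := by
    have e0 : Model.hamiltonian 1 (torusAdj n) = -((1 / 2 : ℂ) • ∑ x : Tor n, ∑ y : Tor n,
      if torusAdj n x y then ∑ a : Fin 3, siteOpV x (spin 1 a) * siteOpV y (spin 1 a) else 0) := rfl
    rw [e0, sum_torusAdj hn (fun x y => ∑ a : Fin 3, siteOpV x (spin 1 a) * siteOpV y (spin 1 a))]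
    have e1 : (∑ z : Tor n × Fin 3, ∑ a : Fin 3, siteOpV (z.1 + Pi.single z.2 1) (spin 1 a) *
        siteOpV z.1 (spin 1 a)) = ∑ z : Tor n × Fin 3, ∑ a : Fin 3, siteOpV z.1 (spin 1 a) *
        siteOpV (z.1 + Pi.single z.2 1) (spin 1 a) :=
      Finset.sum_congr rfl fun z _ => siteDot_comm (hne z)
    rw [e1]
    have e2 : ∀ X : Matrix (Tor n → Fin 2) (Tor n → Fin 2) ℂ,
        -((1 / 2 : ℂ) • (X + X)) = -X := fun X => by module
    exact e2 _
  have hham : cM (ham (edges n) (fun _ => h)) =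
      ((Fintype.card (Tor n × Fin 3) : ℂ) * (1 / 4)) • (1 : Matrix (Tor n → Fin 2) (Tor n → Fin 2) ℂ) -
        (∑ z : Tor n × Fin 3, ∑ a : Fin 3, siteOpV z.1 (spin 1 a) *
        siteOpV (z.1 + Pi.single z.2 1) (spin 1 a)) - (h : ℂ) • Model.magnetization 1 (Tor n) := by
    unfold ham
    rw [sum_edges, cM_sub, cM_sum]
    have e1 : ∀ z : Tor n × Fin 3, cM (LRO.hM (z.1, z.1 + Pi.single z.2 1).1
        (z.1, z.1 + Pi.single z.2 1).2) = (1 / 4 : ℂ) • (1 : Matrix (Tor n → Fin 2) (Tor n → Fin 2) ℂ) -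
      ∑ a : Fin 3, siteOpV z.1 (spin 1 a) * siteOpV (z.1 + Pi.single z.2 1) (spin 1 a) :=
      fun z => cM_hM (hne z)
    rw [Finset.sum_congr rfl fun z _ => e1 z, Finset.sum_sub_distrib, Finset.sum_const,
      Finset.card_univ, hM, ← cM_smul, Finset.smul_sum, ← Nat.cast_smul_eq_nsmul ℂ, smul_smul]
    congr 2
    refine Finset.sum_congr rfl fun x _ => ?_
    rw [smul_smul]
    congr 1
    ring
  have hex : expoV 1 (torusAdj n) β h = -(β : ℂ) • (Model.hamiltonian 1 (torusAdj n) -
    (h : ℂ) • Model.magnetization 1 (Tor n)) := rfl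
  rw [hex, cM_smul, hham, hH]
  push_cast
  module

/-- Total magnetization in the swap form. -/
theorem gibbsMagV_eq (hn : 3 ≤ n) (β h : ℝ) :
    gibbsMagV 1 (torusAdj n) β h =
      ∑ x : Tor n, (1 / 2 - rho (edges n) β (fun _ => h) x) := by
  have hex : NormedSpace.exp (expoV 1 (torusAdj n) β h) =
      ((Real.exp (β / 4 * (Fintype.card (Tor n × Fin 3))) : ℝ) : ℂ) •
        cM (NormedSpace.exp (-β • ham (edges n) (fun _ => h))) := by
    rw [expoV_eq_cM hn, exp_add_smul_one, exp_cM]
  have hM : Model.magnetization 1 (Tor n) = cM (∑ x : Tor n, (1 / 2 : ℝ) • szM x) := by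
    have hM : Model.magnetization 1 (Tor n) = ∑ x : Tor n, siteOpV x (spin 1 2) := rfl
    rw [hM, cM_sum]
    refine Finset.sum_congr rfl fun x _ => ?_
    rw [cM_smul, cM_sz]
    push_cast
    module
  have hc : Real.exp (β / 4 * (Fintype.card (Tor n × Fin 3))) ≠ 0 := (Real.exp_pos _).ne'
  set c := Real.exp (β / 4 * (Fintype.card (Tor n × Fin 3))) with hcdef
  unfold gibbsMagV
  rw [hex, hM, Matrix.smul_mul, ← cM_mul, Matrix.trace_smul, Matrix.trace_smul, trace_cM,
    trace_cM, smul_eq_mul, smul_eq_mul, ← Complex.ofReal_mul, ← Complex.ofReal_mul,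
    Complex.ofReal_re, Complex.ofReal_re, mul_div_mul_left _ _ hc]
  have hpos : 0 < Matrix.trace (NormedSpace.exp (-β • ham (edges n) (fun _ : Tor n => h))) := by
    have h1 := trace_exp_pos (expoV_isHermitian 1 (torusAdj n) (torusAdj_irrefl (by omega)) β h)
    rw [hex, Matrix.trace_smul, trace_cM, smul_eq_mul, ← Complex.ofReal_mul,
      Complex.ofReal_re] at h1
    exact (mul_pos_iff_of_pos_left (Real.exp_pos _)).1 h1
  simp only [rho_eq_gib _ _ _ _ hpos.ne', gib]
  rw [← Finset.sum_div, ← Matrix.trace_sum, ← Finset.mul_sum]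

end final

end Vale.Agent.P361.LRO
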