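import Vale.Agent.P361.BridgeC

/-! # Final form of the statements -/

namespace Vale.Agent.P361.LRO

open Filter Topology

theorem answer_of {n : ℕ} (hn : 1 ≤ n) {C : ℝ} (H : ∃ β₀ : ℝ, 0 < β₀ ∧ ∀ β : ℝ, β₀ ≤ β →
      (n : ℝ) / 2 - C * β ^ (-(1 / 100) : ℝ) ≤ Model.spontMag n β) :
    Tendsto (fun β => Model.spontMag n β) atTop (𝓝 ((n : ℝ) / 2)) ∧
    ∃ β₀ : ℝ, 0 < β₀ ∧ ∀ β : ℝ, β₀ ≤ β →
      0 < Model.spontMag n β ∧ (n : ℝ) / 2 - C * β ^ (-(1 / 100) : ℝ) ≤ Model.spontMag n β := by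
  obtain ⟨β₀, h0, H⟩ := H
  have hlim : Tendsto (fun β : ℝ => (n : ℝ) / 2 - C * β ^ (-(1 / 100) : ℝ)) atTop
      (𝓝 ((n : ℝ) / 2)) := by
    have h1 : Tendsto (fun β : ℝ => β ^ (-(1 / 100) : ℝ)) atTop (𝓝 0) :=
      tendsto_rpow_neg_atTop (by norm_num)
    simpa using (tendsto_const_nhds (x := (n : ℝ) / 2)).sub (h1.const_mul C)
  have hle : ∀ β : ℝ, 0 < β → Model.spontMag n β ≤ (n : ℝ) / 2 := fun β hβ =>
    (Vale.Agent.P361.Bridge.main_thermo n hn β hβ).2.2.2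
  have hT : Tendsto (fun β => Model.spontMag n β) atTop (𝓝 ((n : ℝ) / 2)) := by
    refine tendsto_of_tendsto_of_tendsto_of_le_of_le' hlim tendsto_const_nhds ?_ ?_
    · filter_upwards [eventually_ge_atTop β₀] with β hβ using H β hβ
    · filter_upwards [eventually_gt_atTop (0 : ℝ)] with β hβ using hle β hβ
  refine ⟨hT, ?_⟩
  have hn' : (0 : ℝ) < (n : ℝ) / 2 := by
    have : (1 : ℝ) ≤ n := by exact_mod_cast hn
    linarith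
  obtain ⟨β₁, h1⟩ := eventually_atTop.1 ((tendsto_order.1 hT).1 0 hn')
  exact ⟨max β₀ β₁, lt_max_of_lt_left h0, fun β hβ =>
    ⟨h1 β (le_trans (le_max_right _ _) hβ), H β (le_trans (le_max_left _ _) hβ)⟩⟩

/-- Everything known about the zero-field limit for spin `n/2`. -/
theorem answer_all {n : ℕ} (hn : 1 ≤ n) {C : ℝ} (H : ∃ β₀ : ℝ, 0 < β₀ ∧ ∀ β : ℝ, β₀ ≤ β →
      (n : ℝ) / 2 - C * β ^ (-(1 / 100) : ℝ) ≤ Model.spontMag n β) :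
    (∀ β : ℝ, 0 < β →
      (∀ h : ℝ, Tendsto (fun N : ℕ => Model.finPressure n N β h) atTop (𝓝 (Model.pressure n β h))) ∧
      ConvexOn ℝ Set.univ (Model.pressure n β) ∧
      HasDerivWithinAt (Model.pressure n β) (Model.spontMag n β) (Set.Ioi 0) 0 ∧
      Model.spontMag n β ≤ (n : ℝ) / 2) ∧
    (∃ β₀ : ℝ, 0 < β₀ ∧ ∀ β : ℝ, β₀ ≤ β →
      0 < Model.spontMag n β ∧ (n : ℝ) / 2 - C * β ^ (-(1 / 100) : ℝ) ≤ Model.spontMag n β) ∧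
    Tendsto (fun β => Model.spontMag n β) atTop (𝓝 ((n : ℝ) / 2)) ∧
    (∀ c : ℝ, c < (riemannZeta (3 / 2)).re /
        (8 * Real.pi ^ (3 / 2 : ℝ) * ((n : ℝ) / 2) ^ (3 / 2 : ℝ)) →
      ∀ᶠ β : ℝ in atTop, c < β ^ (3 / 2 : ℝ) * ((n : ℝ) / 2 - Model.spontMag n β)) :=
  ⟨fun β hβ => Vale.Agent.P361.Bridge.main_thermo n hn β hβ, (answer_of hn H).2,
    (answer_of hn H).1, Vale.Agent.P361.Bridge.main_bloch n hn⟩

/-- The case `n = 1`. -/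
theorem answer_one (H : ∃ β₀ : ℝ, 0 < β₀ ∧ ∀ β : ℝ, β₀ ≤ β →
      1 / 2 - β ^ (-(1 / 100) : ℝ) ≤ Model.spontMag 1 β) :
    (∀ β : ℝ, 0 < β →
      (∀ h : ℝ, Tendsto (fun N : ℕ => Model.finPressure 1 N β h) atTop (𝓝 (Model.pressure 1 β h))) ∧
      ConvexOn ℝ Set.univ (Model.pressure 1 β) ∧
      HasDerivWithinAt (Model.pressure 1 β) (Model.spontMag 1 β) (Set.Ioi 0) 0 ∧
      Model.spontMag 1 β ≤ 1 / 2) ∧
    (∃ β₀ : ℝ, 0 < β₀ ∧ ∀ β : ℝ, β₀ ≤ β →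
      0 < Model.spontMag 1 β ∧ 1 / 2 - β ^ (-(1 / 100) : ℝ) ≤ Model.spontMag 1 β) ∧
    Tendsto (fun β => Model.spontMag 1 β) atTop (𝓝 (1 / 2)) ∧
    (∀ c : ℝ, c < (riemannZeta (3 / 2)).re / (8 * Real.pi ^ (3 / 2 : ℝ) * (1 / 2) ^ (3 / 2 : ℝ)) →
      ∀ᶠ β : ℝ in atTop, c < β ^ (3 / 2 : ℝ) * (1 / 2 - Model.spontMag 1 β)) := by
  have h := answer_all (n := 1) le_rfl (C := 1) (by simpa only [Nat.cast_one, one_mul] using H)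
  simpa only [Nat.cast_one, one_mul] using h

end Vale.Agent.P361.LRO
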