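import Vale.Agent.P361.LRO.Fin.CMat
import Vale.Agent.P361.LRO.Defs

/-!
Block (9): symmetry and positivity of the matrices of `LRO/Defs.lean`, translation covariance of
`rho` on the torus, and the base case `ρ ≤ log 2 / β` in the uniform field `1`.
-/

namespace Vale.Agent.P361.LRO.Bs

open Matrix Finset
open scoped ComplexOrder

section Gen

variable {V : Type} [Fintype V] [DecidableEq V]

theorem swapM_isSymm (x y : V) : (swapM x y).IsSymm := by
  ext σ τ
  rw [Matrix.transpose_apply, swapM, Matrix.of_apply, Matrix.of_apply]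
  have h : (τ = σ ∘ Equiv.swap x y) ↔ (σ = τ ∘ Equiv.swap x y) := by
    constructor
    · rintro rfl; funext z; simp
    · rintro rfl; funext z; simp
  simp only [h]

theorem swapM_sq (x y : V) : swapM x y * swapM x y = 1 := by
  ext σ τ
  rw [Matrix.mul_apply]
  simp only [swapM, Matrix.of_apply]
  rw [Finset.sum_eq_single (σ ∘ Equiv.swap x y)]
  · have h1 : σ = (σ ∘ Equiv.swap x y) ∘ Equiv.swap x y := by funext z; simp
    rw [if_pos h1, one_mul, Matrix.one_apply]
    have h2 : (σ ∘ Equiv.swap x y = τ ∘ Equiv.swap x y) ↔ σ = τ := by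
      constructor
      · intro h
        funext z
        have := congrFun h (Equiv.swap x y z)
        simpa using this
      · rintro rfl; rfl
    simp only [h2]
  · intro ρ _ hρ
    rw [if_neg, zero_mul]
    rintro rfl
    exact hρ (by funext z; simp)
  · intro h; exact absurd (Finset.mem_univ _) h

theorem hM_isSymm (x y : V) : (hM x y).IsSymm := by
  unfold hM
  rw [Matrix.IsSymm, Matrix.transpose_smul, Matrix.transpose_sub, Matrix.transpose_one,
    swapM_isSymm x y]

theorem hM_sq (x y : V) : hM x y * hM x y = hM x y := by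
  unfold hM
  rw [Matrix.smul_mul, Matrix.mul_smul, Matrix.sub_mul, Matrix.mul_sub, Matrix.mul_sub,
    swapM_sq, Matrix.mul_one, Matrix.one_mul, Matrix.mul_one]
  module

theorem hM_posSemidef (x y : V) : (hM x y).PosSemidef := by
  have h1 : hM x y = (hM x y)ᴴ * hM x y := by
    rw [Matrix.conjTranspose_eq_transpose_of_trivial, hM_isSymm x y, hM_sq]
  rw [h1]
  exact Matrix.posSemidef_conjTranspose_mul_self _

theorem szM_isSymm (x : V) : (szM x).IsSymm := Matrix.isSymm_diagonal _

theorem down_posSemidef (x : V) : ((1 / 2 : ℝ) • (1 - szM x)).PosSemidef := by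
  have h1 : (1 / 2 : ℝ) • (1 - szM x) =
      Matrix.diagonal (fun σ : V → Fin 2 => if σ x = 0 then (0 : ℝ) else 1) := by
    ext σ τ
    by_cases h : σ = τ
    · subst h
      simp only [szM, Matrix.smul_apply, Matrix.sub_apply, Matrix.one_apply_eq,
        Matrix.diagonal_apply_eq, smul_eq_mul]
      split_ifs <;> norm_num
    · simp [szM, h]
  rw [h1]
  exact Matrix.PosSemidef.diagonal fun σ => by
    simp only [Pi.zero_apply]
    split_ifs <;> norm_num

theorem list_sum_isSymm (L : List (V × V)) : ((L.map fun e => hM e.1 e.2).sum).IsSymm := by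
  induction L with
  | nil => simp [Matrix.IsSymm]
  | cons a L ih =>
    rw [List.map_cons, List.sum_cons, Matrix.IsSymm, Matrix.transpose_add, hM_isSymm, ih]

theorem list_sum_posSemidef (L : List (V × V)) :
    ((L.map fun e => hM e.1 e.2).sum).PosSemidef := by
  induction L with
  | nil => exact Matrix.PosSemidef.zero
  | cons a L ih =>
    rw [List.map_cons, List.sum_cons]
    exact (hM_posSemidef _ _).add ih

theorem sum_szM_isSymm (c : V → ℝ) : (∑ x, c x • szM x).IsSymm := by
  rw [Matrix.IsSymm, Matrix.transpose_sum]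
  exact Finset.sum_congr rfl fun x _ => by rw [Matrix.transpose_smul, szM_isSymm x]

theorem ham_isSymm (L : List (V × V)) (h : V → ℝ) : (ham L h).IsSymm := by
  unfold ham
  rw [Matrix.IsSymm, Matrix.transpose_sub, list_sum_isSymm L, sum_szM_isSymm]

theorem smul_ham_isSymm (L : List (V × V)) (β : ℝ) (h : V → ℝ) : (-β • ham L h).IsSymm := by
  rw [Matrix.IsSymm, Matrix.transpose_smul, ham_isSymm L h]

theorem trace_ham_pos (L : List (V × V)) (β : ℝ) (h : V → ℝ) :
    0 < trace (NormedSpace.exp (-β • ham L h)) := trace_exp_pos_real (smul_ham_isSymm L β h)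

theorem gib_add (L : List (V × V)) (β : ℝ) (h : V → ℝ) (A B : Matrix (V → Fin 2) (V → Fin 2) ℝ) :
    gib L β h (A + B) = gib L β h A + gib L β h B := by
  unfold gib
  rw [Matrix.mul_add, Matrix.trace_add, add_div]

theorem gib_smul (L : List (V × V)) (β : ℝ) (h : V → ℝ) (c : ℝ)
    (A : Matrix (V → Fin 2) (V → Fin 2) ℝ) : gib L β h (c • A) = c * gib L β h A := by
  unfold gib
  rw [Matrix.mul_smul, Matrix.trace_smul, smul_eq_mul, mul_div_assoc]

theorem gib_sub (L : List (V × V)) (β : ℝ) (h : V → ℝ) (A B : Matrix (V → Fin 2) (V → Fin 2) ℝ) :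
    gib L β h (A - B) = gib L β h A - gib L β h B := by
  unfold gib
  rw [Matrix.mul_sub, Matrix.trace_sub, sub_div]

theorem gib_sum (L : List (V × V)) (β : ℝ) (h : V → ℝ) {κ : Type*} (s : Finset κ)
    (A : κ → Matrix (V → Fin 2) (V → Fin 2) ℝ) :
    gib L β h (∑ k ∈ s, A k) = ∑ k ∈ s, gib L β h (A k) := by
  unfold gib
  rw [Matrix.mul_sum, Matrix.trace_sum, Finset.sum_div]

theorem gib_one (L : List (V × V)) (β : ℝ) (h : V → ℝ) : gib L β h 1 = 1 := by
  unfold gib
  rw [Matrix.mul_one, div_self (trace_ham_pos L β h).ne']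

theorem gib_nonneg (L : List (V × V)) (β : ℝ) (h : V → ℝ)
    {A : Matrix (V → Fin 2) (V → Fin 2) ℝ} (hA : A.PosSemidef) : 0 ≤ gib L β h A :=
  div_nonneg (trace_exp_mul_nonneg_real (smul_ham_isSymm L β h) hA) (trace_ham_pos L β h).le

theorem rho_eq (L : List (V × V)) (β : ℝ) (h : V → ℝ) (x : V) :
    rho L β h x = 1 / 2 - 1 / 2 * gib L β h (szM x) := by
  unfold rho
  rw [gib_smul, gib_sub, gib_one]
  ring

theorem rho_nonneg (L : List (V × V)) (β : ℝ) (h : V → ℝ) (x : V) : 0 ≤ rho L β h x :=
  gib_nonneg L β h (down_posSemidef x)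

/-- Adding a multiple of the identity to the exponent. -/
theorem exp_add_smul_one {ι : Type*} [Fintype ι] [DecidableEq ι] (X : Matrix ι ι ℝ) (k : ℝ) :
    NormedSpace.exp (X + k • (1 : Matrix ι ι ℝ)) = Real.exp k • NormedSpace.exp X := by
  have hcomm : Commute X (k • (1 : Matrix ι ι ℝ)) := (Commute.one_right X).smul_right k
  rw [Matrix.exp_add_of_commute _ _ hcomm]
  have h2 : NormedSpace.exp (k • (1 : Matrix ι ι ℝ)) = Real.exp k • (1 : Matrix ι ι ℝ) := by
    have h3 : k • (1 : Matrix ι ι ℝ) = diagonal (fun _ => k) := by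
      ext i j
      by_cases hij : i = j
      · subst hij; simp
      · simp [hij]
    rw [h3, Matrix.exp_diagonal]
    ext i j
    by_cases hij : i = j
    · subst hij; simp [Pi.exp_def, ← Real.exp_eq_exp_ℝ]
    · simp [hij]
  rw [h2, Matrix.mul_smul, Matrix.mul_one]

/-- The nonnegative matrix `∑ h_e + ∑ (1/2) (1 - σ³_x) = H - ∑ S³_x + |V| / 2`. -/
noncomputable def groundM (L : List (V × V)) : Matrix (V → Fin 2) (V → Fin 2) ℝ :=
  (L.map fun e => hM e.1 e.2).sum + ∑ x, (1 / 2 : ℝ) • (1 - szM x)

theorem ham_one_eq (L : List (V × V)) : ham L (fun _ => 1) =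
    groundM L - ((Fintype.card V : ℝ) / 2) • (1 : Matrix (V → Fin 2) (V → Fin 2) ℝ) := by
  unfold ham groundM
  have h1 : (∑ x : V, (1 / 2 : ℝ) • (1 - szM x)) =
      ((Fintype.card V : ℝ) / 2) • (1 : Matrix (V → Fin 2) (V → Fin 2) ℝ) -
        ∑ x : V, (1 / 2 : ℝ) • szM x := by
    simp only [smul_sub, Finset.sum_sub_distrib, Finset.sum_const, Finset.card_univ]
    congr 1
    rw [← Nat.cast_smul_eq_nsmul ℝ, smul_smul]
    congr 1
    ring
  rw [h1]
  abel

theorem groundM_posSemidef (L : List (V × V)) : (groundM L).PosSemidef :=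
  (list_sum_posSemidef L).add (Matrix.posSemidef_sum _ fun x _ => down_posSemidef x)

theorem groundM_isSymm (L : List (V × V)) : (groundM L).IsSymm := by
  have := (groundM_posSemidef L).1
  rwa [Matrix.IsHermitian, Matrix.conjTranspose_eq_transpose_of_trivial] at this

theorem groundM_up (L : List (V × V)) : groundM L 0 0 = 0 := by
  unfold groundM
  rw [Matrix.add_apply]
  have h1 : ∀ L : List (V × V), (L.map fun e => hM e.1 e.2).sum (0 : V → Fin 2) 0 = 0 := by
    intro L
    induction L with
    | nil => rfl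
    | cons a L ih =>
      rw [List.map_cons, List.sum_cons, Matrix.add_apply, ih, add_zero]
      have h2 : (0 : V → Fin 2) = (0 : V → Fin 2) ∘ Equiv.swap a.1 a.2 := by funext z; rfl
      simp only [hM, Matrix.smul_apply, Matrix.sub_apply, Matrix.one_apply_eq, swapM,
        Matrix.of_apply, smul_eq_mul]
      rw [if_pos h2]; norm_num
  rw [h1, zero_add, Matrix.sum_apply]
  refine Finset.sum_eq_zero fun x _ => ?_
  simp [szM]

theorem one_le_trace_ground (L : List (V × V)) (β : ℝ) :
    1 ≤ trace (NormedSpace.exp (-β • groundM L)) := by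
  have hs : (-β • groundM L).IsSymm := by
    rw [Matrix.IsSymm, Matrix.transpose_smul, groundM_isSymm L]
  have h := peierls (cM_isHermitian hs) (V := 1) (by simp)
  rw [exp_cM, trace_cM_re] at h
  refine le_trans ?_ h
  have h1 : star (1 : Matrix (V → Fin 2) (V → Fin 2) ℂ) * cM (-β • groundM L) * 1 =
      cM (-β • groundM L) := by simp
  rw [h1]
  have h0 : (1 : ℝ) = Real.exp (cM (-β • groundM L) 0 0).re := by
    simp [cM_apply, groundM_up]
  rw [h0]
  exact Finset.single_le_sum (f := fun i => Real.exp (cM (-β • groundM L) i i).re)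
    (fun i _ => (Real.exp_pos _).le) (Finset.mem_univ (0 : V → Fin 2))

/-- Total number of down spins in the uniform field `1`. -/
theorem sum_rho_le (L : List (V × V)) {β : ℝ} (hβ : 0 < β) :
    β * ∑ x, rho L β (fun _ => 1) x ≤ Fintype.card V * Real.log 2 := by
  set G := groundM L with hG
  have hs : (-β • G).IsSymm := by
    rw [Matrix.IsSymm, Matrix.transpose_smul, groundM_isSymm L]
  have hs2 : (β • G).IsSymm := by
    rw [Matrix.IsSymm, Matrix.transpose_smul, groundM_isSymm L]
  have hpb := peierls_bogoliubov_real hs hs2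
  have h0 : -β • G + β • G = 0 := by module
  rw [h0, NormedSpace.exp_zero, Matrix.trace_one, Matrix.mul_smul, Matrix.trace_smul,
    smul_eq_mul] at hpb
  have hlog : 0 ≤ Real.log (trace (NormedSpace.exp (-β • G))) :=
    Real.log_nonneg (one_le_trace_ground L β)
  have hcard : Real.log ((Fintype.card (V → Fin 2) : ℕ) : ℝ) = Fintype.card V * Real.log 2 := by
    rw [Fintype.card_fun, Fintype.card_fin]
    push_cast
    rw [Real.log_pow]
  rw [hcard] at hpb
  have hE : β * trace (NormedSpace.exp (-β • G) * G) / trace (NormedSpace.exp (-β • G)) ≤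
      Fintype.card V * Real.log 2 := by linarith
  refine le_trans ?_ hE
  have hexp : NormedSpace.exp (-β • ham L (fun _ => 1)) =
      Real.exp (β * (Fintype.card V / 2)) • NormedSpace.exp (-β • G) := by
    rw [← exp_add_smul_one]
    congr 1
    rw [ham_one_eq]
    module
  have hg : ∀ A, gib L β (fun _ => 1) A =
      trace (NormedSpace.exp (-β • G) * A) / trace (NormedSpace.exp (-β • G)) := by
    intro A
    unfold gib
    rw [hexp, Matrix.smul_mul, Matrix.trace_smul, Matrix.trace_smul, smul_eq_mul, smul_eq_mul]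
    rw [mul_div_mul_left _ _ (Real.exp_pos _).ne']
  rw [mul_div_assoc, ← hg]
  refine mul_le_mul_of_nonneg_left ?_ hβ.le
  rw [hG]
  unfold groundM
  rw [gib_add, gib_sum]
  have := gib_nonneg L β (fun _ => 1) (list_sum_posSemidef L)
  unfold rho
  linarith

/-! ### Relabelling -/

theorem subm_sub {ι κ : Type*} (e : ι ≃ κ) (A B : Matrix κ κ ℝ) :
    (A - B).submatrix e e = A.submatrix e e - B.submatrix e e := rfl

theorem subm_add {ι κ : Type*} (e : ι ≃ κ) (A B : Matrix κ κ ℝ) :
    (A + B).submatrix e e = A.submatrix e e + B.submatrix e e := rfl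

theorem subm_smul {ι κ : Type*} (e : ι ≃ κ) (c : ℝ) (A : Matrix κ κ ℝ) :
    (c • A).submatrix e e = c • A.submatrix e e := rfl

theorem subm_sum {ι κ ω : Type*} (e : ι ≃ κ) (s : Finset ω) (A : ω → Matrix κ κ ℝ) :
    (∑ k ∈ s, A k).submatrix e e = ∑ k ∈ s, (A k).submatrix e e := by
  ext i j
  simp [Matrix.sum_apply]

theorem exp_submatrix_real {ι κ : Type*} [Fintype ι] [DecidableEq ι] [Fintype κ] [DecidableEq κ]
    (e : ι ≃ κ) (Y : Matrix κ κ ℝ) :
    NormedSpace.exp (Y.submatrix e e) = (NormedSpace.exp Y).submatrix e e := by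
  apply cM_injective
  rw [← exp_cM]
  have h1 : cM (Y.submatrix e e) = (cM Y).submatrix e e := rfl
  have h2 : cM ((NormedSpace.exp Y).submatrix e e) = (cM (NormedSpace.exp Y)).submatrix e e := rfl
  rw [h1, h2, exp_submatrix_equiv, exp_cM]

theorem trace_submatrix_real {ι κ : Type*} [Fintype ι] [Fintype κ]
    (e : ι ≃ κ) (Y : Matrix κ κ ℝ) : trace (Y.submatrix e e) = trace Y := by
  simp only [Matrix.trace, Matrix.diag_apply, Matrix.submatrix_apply]
  exact Equiv.sum_comp e (fun i => Y i i)

/-- The relabelling of configurations `σ ↦ σ ∘ g⁻¹`. -/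
def relab (g : V ≃ V) : (V → Fin 2) ≃ (V → Fin 2) := Equiv.arrowCongr g (Equiv.refl _)

omit [Fintype V] [DecidableEq V] in
theorem relab_apply (g : V ≃ V) (σ : V → Fin 2) (x : V) : relab g σ (g x) = σ x := by
  simp [relab, Equiv.arrowCongr]

theorem szM_relab (g : V ≃ V) (x : V) :
    (szM (g x)).submatrix (relab g) (relab g) = szM x := by
  ext σ τ
  rw [Matrix.submatrix_apply, szM, szM]
  by_cases h : σ = τ
  · subst h
    rw [Matrix.diagonal_apply_eq, Matrix.diagonal_apply_eq, relab_apply]
  · rw [Matrix.diagonal_apply_ne _ h, Matrix.diagonal_apply_ne]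
    exact fun h2 => h ((relab g).injective h2)

theorem swapM_relab (g : V ≃ V) (x y : V) :
    (swapM (g x) (g y)).submatrix (relab g) (relab g) = swapM x y := by
  ext σ τ
  rw [Matrix.submatrix_apply, swapM, swapM, Matrix.of_apply, Matrix.of_apply]
  have hsw : ∀ z, Equiv.swap (g x) (g y) (g z) = g (Equiv.swap x y z) := by
    intro z
    rw [Equiv.swap_apply_def, Equiv.swap_apply_def]
    simp only [EmbeddingLike.apply_eq_iff_eq]
    split_ifs <;> rfl
  have h : (relab g σ = relab g τ ∘ Equiv.swap (g x) (g y)) ↔ (σ = τ ∘ Equiv.swap x y) := by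
    constructor
    · intro h
      funext z
      have := congrFun h (g z)
      rw [relab_apply, Function.comp_apply, hsw, relab_apply] at this
      exact this
    · intro h
      funext z
      obtain ⟨w, rfl⟩ := g.surjective z
      rw [relab_apply, Function.comp_apply, hsw, relab_apply, h]
      rfl
  simp only [h]

theorem hM_relab (g : V ≃ V) (x y : V) :
    (hM (g x) (g y)).submatrix (relab g) (relab g) = hM x y := by
  unfold hM
  rw [subm_smul, subm_sub, Matrix.submatrix_one_equiv, swapM_relab]

/-- If the sum over the edges is invariant under `g`, then `rho` is covariant. -/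
theorem rho_relab (L : List (V × V)) (g : V ≃ V)
    (hL : ∀ f : V → V → Matrix (V → Fin 2) (V → Fin 2) ℝ,
      (L.map fun e => f e.1 e.2).sum = (L.map fun e => f (g e.1) (g e.2)).sum)
    (β : ℝ) (h : V → ℝ) (x : V) :
    rho L β (fun y => h (g y)) x = rho L β h (g x) := by
  have h1 : (ham L h).submatrix (relab g) (relab g) = ham L (fun y => h (g y)) := by
    unfold ham
    rw [subm_sub]
    congr 1
    · have h2 : ∀ L : List (V × V),
          ((L.map fun e => hM (g e.1) (g e.2)).sum).submatrix (relab g) (relab g) =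
            (L.map fun e => hM e.1 e.2).sum := by
        intro L
        induction L with
        | nil => ext i j; rfl
        | cons a L ih =>
          rw [List.map_cons, List.sum_cons, List.map_cons, List.sum_cons, subm_add, ih, hM_relab]
      conv_lhs => rw [hL hM]
      exact h2 L
    · rw [subm_sum, ← Equiv.sum_comp g]
      refine Finset.sum_congr rfl fun y _ => ?_
      rw [subm_smul, szM_relab]
  have h2 : NormedSpace.exp (-β • ham L (fun y => h (g y))) =
      (NormedSpace.exp (-β • ham L h)).submatrix (relab g) (relab g) := by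
    rw [← exp_submatrix_real, ← h1]
    congr 1
  unfold rho gib
  rw [h2, trace_submatrix_real]
  congr 1
  have h3 : ((1 / 2 : ℝ) • (1 - szM x)) =
      ((1 / 2 : ℝ) • (1 - szM (g x))).submatrix (relab g) (relab g) := by
    rw [subm_smul, subm_sub, Matrix.submatrix_one_equiv, szM_relab]
  rw [h3, Matrix.submatrix_mul_equiv, trace_submatrix_real]

end Gen

section Torus

variable {n : ℕ} [NeZero n]

theorem edges_map_sum {M : Type*} [AddCommMonoid M] (f : Tor n → Tor n → M) :
    ((edges n).map fun e => f e.1 e.2).sum =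
      ∑ z : Tor n × Fin 3, f z.1 (z.1 + Pi.single z.2 1) := by
  unfold edges
  rw [List.map_map, ← Finset.sum_map_toList]
  rfl

theorem edges_translate {M : Type*} [AddCommMonoid M] (f : Tor n → Tor n → M) (v : Tor n) :
    ((edges n).map fun e => f e.1 e.2).sum =
      ((edges n).map fun e => f (e.1 + v) (e.2 + v)).sum := by
  rw [edges_map_sum, edges_map_sum (fun a b => f (a + v) (b + v))]
  rw [← Equiv.sum_comp (Equiv.prodCongr (Equiv.addRight v) (Equiv.refl (Fin 3)))]
  refine Finset.sum_congr rfl fun z _ => ?_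
  change f (z.1 + v) ((z.1 + v) + Pi.single z.2 1) = f (z.1 + v) ((z.1 + Pi.single z.2 1) + v)
  rw [add_right_comm]

/-- Translation covariance of `rho`. -/
theorem rho_translate (β : ℝ) (h : Tor n → ℝ) (v x : Tor n) :
    rho (edges n) β (fun y => h (y + v)) x = rho (edges n) β h (x + v) :=
  rho_relab (edges n) (Equiv.addRight v) (fun f => edges_translate f v) β h x

/-- Base case of the bootstrap. -/
theorem base_rho {β : ℝ} (hβ : 0 < β) (x : Tor n) :
    rho (edges n) β (fun _ => 1) x ≤ Real.log 2 / β := by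
  have h1 : ∀ y : Tor n, rho (edges n) β (fun _ => 1) y = rho (edges n) β (fun _ => 1) x := by
    intro y
    have := rho_translate β (fun _ : Tor n => (1 : ℝ)) (y - x) x
    rw [add_sub_cancel] at this
    exact this.symm
  have h2 := sum_rho_le (edges n) hβ
  simp only [h1, Finset.sum_const, Finset.card_univ, nsmul_eq_mul] at h2
  have hc : (0 : ℝ) < Fintype.card (Tor n) := by exact_mod_cast Fintype.card_pos
  rw [le_div_iff₀ hβ]
  have h3 : (Fintype.card (Tor n) : ℝ) * (rho (edges n) β (fun _ => 1) x * β) ≤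
      Fintype.card (Tor n) * Real.log 2 := by linarith
  exact le_of_mul_le_mul_left h3 hc

end Torus

end Vale.Agent.P361.LRO.Bs
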