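import Vale.Agent.P361.LRO.Defs

/-! # The bootstrap: continuity in the field and descent to small fields. -/

namespace Vale.Agent.P361.LRO

open Finset Matrix Topology

/-! ### Matrix exponentials over `ℝ` -/

theorem continuous_exp_real {m : Type*} [Fintype m] [DecidableEq m] :
    Continuous (NormedSpace.exp : Matrix m m ℝ → Matrix m m ℝ) := by
  let _ : NormedRing (Matrix m m ℝ) := Matrix.linftyOpNormedRing
  let _ : NormedAlgebra ℝ (Matrix m m ℝ) := Matrix.linftyOpNormedAlgebra
  let _ : NormedAlgebra ℚ (Matrix m m ℝ) := NormedAlgebra.restrictScalars ℚ ℝ _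
  exact NormedSpace.exp_continuous

/-- The trace of the exponential of a real symmetric matrix is positive. -/
theorem trace_exp_real_pos {m : Type*} [Fintype m] [DecidableEq m] [Nonempty m]
    {X : Matrix m m ℝ} (hX : X.IsSymm) : 0 < Matrix.trace (NormedSpace.exp X) := by
  have h1 : NormedSpace.exp X = (NormedSpace.exp ((1 / 2 : ℝ) • X))ᵀ *
      NormedSpace.exp ((1 / 2 : ℝ) • X) := by
    rw [← Matrix.exp_transpose, Matrix.transpose_smul, hX.eq,
      ← Matrix.exp_add_of_commute _ _ (Commute.refl _), ← add_smul]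
    norm_num
  have h2 : IsUnit (NormedSpace.exp ((1 / 2 : ℝ) • X)) := Matrix.isUnit_exp _
  set Y := NormedSpace.exp ((1 / 2 : ℝ) • X) with hY
  rw [h1]
  have h3 : Matrix.trace (Yᵀ * Y) = ∑ i, ∑ j, Y j i ^ 2 := by
    simp only [Matrix.trace, Matrix.diag_apply, Matrix.mul_apply, Matrix.transpose_apply, pow_two]
  rw [h3]
  have hne : Y ≠ 0 := by
    intro h0
    rw [h0] at h2
    exact not_isUnit_zero h2
  obtain ⟨i, j, hij⟩ : ∃ i j, Y i j ≠ 0 := by
    by_contra hcon
    push Not at hcon
    exact hne (by ext i j; exact hcon i j)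
  refine lt_of_lt_of_le (show 0 < Y i j ^ 2 by positivity) ?_
  refine le_trans ?_ (Finset.single_le_sum (f := fun i => ∑ j, Y j i ^ 2)
    (fun _ _ => Finset.sum_nonneg fun _ _ => sq_nonneg _) (Finset.mem_univ j))
  exact Finset.single_le_sum (f := fun i => Y i j ^ 2) (fun _ _ => sq_nonneg _)
    (Finset.mem_univ i)

section

variable {V : Type} [Fintype V] [DecidableEq V]

theorem swapM_transpose (x y : V) : (swapM x y)ᵀ = swapM x y := by
  ext σ τ
  simp only [swapM, Matrix.transpose_apply, Matrix.of_apply]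
  have : τ = σ ∘ Equiv.swap x y ↔ σ = τ ∘ Equiv.swap x y := by
    constructor
    · rintro rfl
      ext v; simp
    · rintro rfl
      ext v; simp
  simp only [this]

theorem hM_isSymm (x y : V) : (hM x y).IsSymm := by
  rw [Matrix.IsSymm, hM, Matrix.transpose_smul, Matrix.transpose_sub, Matrix.transpose_one,
    swapM_transpose]

omit [DecidableEq V] in
theorem szM_isSymm (x : V) : (szM x).IsSymm := by
  rw [Matrix.IsSymm, szM, Matrix.diagonal_transpose]

theorem ham_isSymm (L : List (V × V)) (h : V → ℝ) : (ham L h).IsSymm := by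
  have h1 : ∀ l : List (V × V), ((l.map fun e => hM e.1 e.2).sum).IsSymm := by
    intro l
    induction l with
    | nil => simp [Matrix.IsSymm]
    | cons e l ih =>
      rw [List.map_cons, List.sum_cons]
      exact (hM_isSymm _ _).add ih
  rw [ham]
  refine (h1 L).sub ?_
  rw [Matrix.IsSymm, Matrix.transpose_sum]
  refine Finset.sum_congr rfl fun x _ => ?_
  rw [Matrix.transpose_smul, szM_isSymm x]

theorem exponent_isSymm (L : List (V × V)) (β : ℝ) (h : V → ℝ) : (-β • ham L h).IsSymm := by
  rw [Matrix.IsSymm, Matrix.transpose_smul, ham_isSymm]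

theorem Z_pos (L : List (V × V)) (β : ℝ) (h : V → ℝ) :
    0 < Matrix.trace (NormedSpace.exp (-β • ham L h)) :=
  trace_exp_real_pos (exponent_isSymm L β h)

theorem continuous_ham (L : List (V × V)) : Continuous fun h : V → ℝ => ham L h := by
  unfold ham
  refine continuous_const.sub ?_
  refine continuous_finsetSum _ fun x _ => ?_
  exact ((continuous_apply x).div_const 2).smul continuous_const

theorem continuous_gib (L : List (V × V)) (β : ℝ) (A : Matrix (V → Fin 2) (V → Fin 2) ℝ) :
    Continuous fun h : V → ℝ => gib L β h A := by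
  have h1 : Continuous fun h : V → ℝ => NormedSpace.exp (-β • ham L h) :=
    continuous_exp_real.comp ((continuous_ham L).const_smul (-β))
  unfold gib
  refine Continuous.div ?_ ?_ fun h => (Z_pos L β h).ne'
  · exact (h1.matrix_mul continuous_const).matrix_trace
  · exact h1.matrix_trace

theorem continuous_rho (L : List (V × V)) (β : ℝ) (x : V) :
    Continuous fun h : V → ℝ => rho L β h x := continuous_gib L β _

end

/-! ### The abstract bootstrap -/

theorem bootstrap_abs {V : Type} [Fintype V] (R : (V → ℝ) → V → ℝ)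
    (hR : ∀ x, Continuous fun h => R h x) (Reg : (V → ℝ) → Prop)
    (hmax : ∀ h c, 0 < c → Reg h → Reg fun x => max (h x) c) {a η : ℝ} (ha0 : 0 < a)
    (hη : 0 < η)
    (h1 : ∀ x, R (fun _ => 1) x ≤ η)
    (hstep : ∀ h0, a ≤ h0 → h0 ≤ 1 →
      (∀ h, (∀ x, h0 ≤ h x ∧ h x ≤ 1) → Reg h → ∀ x, R h x ≤ η) →
      ∀ h, (∀ x, h0 ≤ h x ∧ h x ≤ 1) → Reg h → ∀ x, R h x ≤ η / 2) (ha1 : a ≤ 1) :
    ∀ h, (∀ x, a ≤ h x ∧ h x ≤ 1) → Reg h → ∀ x, R h x ≤ η / 2 := by
  -- uniform continuity on the compact box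
  have hcomp : IsCompact (Set.Icc (fun _ : V => a) (fun _ => (1 : ℝ))) := isCompact_Icc
  have hcont : Continuous R := continuous_pi hR
  have huc := hcomp.uniformContinuousOn_of_continuous hcont.continuousOn
  rw [Metric.uniformContinuousOn_iff] at huc
  obtain ⟨δ, hδ, huc⟩ := huc (η / 2) (by positivity)
  -- the property
  let P : ℝ → Prop := fun h0 => ∀ h, (∀ x, h0 ≤ h x ∧ h x ≤ 1) → Reg h → ∀ x, R h x ≤ η
  have hP1 : P 1 := by
    intro h hh _ x
    have : h = fun _ => 1 := by
      funext y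
      exact le_antisymm (hh y).2 (hh y).1
    rw [this]
    exact h1 x
  have hPstep : ∀ t, a ≤ t → t ≤ 1 → P t → P (max a (t - δ / 2)) := by
    intro t hat ht1 hPt h hh hreg x
    have ht0 : 0 < t := lt_of_lt_of_le ha0 hat
    have hah : ∀ y, a ≤ h y := fun y => (le_max_left _ _).trans (hh y).1
    let h' : V → ℝ := fun y => max (h y) t
    have hh' : ∀ y, t ≤ h' y ∧ h' y ≤ 1 := fun y => ⟨le_max_right _ _, max_le (hh y).2 ht1⟩
    have hb := hstep t hat ht1 hPt h' hh' (hmax h t ht0 hreg) x
    have hm : h ∈ Set.Icc (fun _ : V => a) (fun _ => (1 : ℝ)) :=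
      ⟨fun y => hah y, fun y => (hh y).2⟩
    have hm' : h' ∈ Set.Icc (fun _ : V => a) (fun _ => (1 : ℝ)) :=
      ⟨fun y => hat.trans (hh' y).1, fun y => (hh' y).2⟩
    have hd : dist h h' < δ := by
      refine lt_of_le_of_lt ((dist_pi_le_iff (by positivity : (0 : ℝ) ≤ δ / 2)).2 fun y => ?_)
        (half_lt_self hδ)
      have h2 : t - δ / 2 ≤ h y := (le_max_right _ _).trans (hh y).1
      rw [Real.dist_eq]
      change |h y - max (h y) t| ≤ δ / 2
      rcases le_total (h y) t with h3 | h3
      · rw [max_eq_right h3, abs_le]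
        constructor <;> linarith
      · rw [max_eq_left h3, sub_self, abs_zero]
        positivity
    have h4 := huc h hm h' hm' hd
    have h5 : dist (R h x) (R h' x) < η / 2 := lt_of_le_of_lt (dist_le_pi_dist _ _ x) h4
    rw [Real.dist_eq, abs_lt] at h5
    linarith [h5.2]
  have hPk : ∀ k : ℕ, P (max a (1 - k * (δ / 2))) := by
    intro k
    induction k with
    | zero =>
      have : max a (1 - ((0 : ℕ) : ℝ) * (δ / 2)) = 1 := by
        rw [Nat.cast_zero, zero_mul, sub_zero]
        exact max_eq_right ha1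
      rw [this]
      exact hP1
    | succ k ih =>
      have h6 := hPstep (max a (1 - k * (δ / 2))) (le_max_left _ _)
        (max_le ha1 (by nlinarith [hδ, (Nat.cast_nonneg k : (0 : ℝ) ≤ k)])) ih
      have h7 : max a (max a (1 - k * (δ / 2)) - δ / 2) = max a (1 - ((k + 1 : ℕ) : ℝ) * (δ / 2)) := by
        push_cast
        rcases le_total a (1 - k * (δ / 2)) with h8 | h8
        · rw [max_eq_right h8]
          congr 1
          ring
        · rw [max_eq_left h8, max_eq_left (by linarith), max_eq_left]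
          nlinarith [hδ]
      rw [h7] at h6
      exact h6
  have hPa : P a := by
    obtain ⟨k, hk⟩ := exists_nat_gt ((1 - a) / (δ / 2))
    have h8 := hPk k
    have h9 : max a (1 - k * (δ / 2)) = a := by
      rw [div_lt_iff₀ (by positivity)] at hk
      exact max_eq_left (by linarith)
    rwa [h9] at h8
  exact hstep a le_rfl ha1 hPa

/-- **The bootstrap** for the field profiles on the torus. -/
theorem boot (n : ℕ) [NeZero n] {β η lam a : ℝ} (hη : 0 < η) (hlam : 0 ≤ lam) (ha0 : 0 < a)
    (ha1 : a ≤ 1) (h1 : ∀ x, rho (edges n) β (fun _ => 1) x ≤ η)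
    (hstep : ∀ h0, a ≤ h0 → h0 ≤ 1 →
      (∀ h, Fam n h0 lam h → ∀ x, rho (edges n) β h x ≤ η) →
      ∀ h, Fam n h0 lam h → ∀ x, rho (edges n) β h x ≤ η / 2) :
    ∀ h, Fam n a lam h → ∀ x, rho (edges n) β h x ≤ η / 2 := by
  have hexp : 1 ≤ Real.exp lam := Real.one_le_exp hlam
  have key := bootstrap_abs (V := Tor n) (fun h x => rho (edges n) β h x)
    (fun x => continuous_rho _ _ x)
    (fun h => ∀ (x : Tor n) (i : Fin 3), h x ≤ Real.exp lam * h (x + Pi.single i 1) ∧
      h (x + Pi.single i 1) ≤ Real.exp lam * h x) ?_ ha0 hη h1 ?_ ha1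
  · intro h hh x
    exact key h hh.1 hh.2 x
  · intro h c hc hreg x i
    have hm : ∀ u v : ℝ, u ≤ Real.exp lam * v → max u c ≤ Real.exp lam * max v c := by
      intro u v huv
      refine max_le (huv.trans ?_) ?_
      · exact mul_le_mul_of_nonneg_left (le_max_left _ _) (Real.exp_pos _).le
      · calc c ≤ Real.exp lam * c := by nlinarith
          _ ≤ _ := mul_le_mul_of_nonneg_left (le_max_right _ _) (Real.exp_pos _).le
    exact ⟨hm _ _ (hreg x i).1, hm _ _ (hreg x i).2⟩
  · intro h0 h2 h3 h4 h h5 h6 x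
    exact hstep h0 h2 h3 (fun h' hh' y => h4 h' hh'.1 hh'.2 y) h ⟨h5, h6⟩ x

end Vale.Agent.P361.LRO
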