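import Vale.Agent.P361.DblComm

/-!
Real matrices inside complex matrices: exponential, trace, Peierls–Bogoliubov and positivity for
real symmetric matrices.
-/

namespace Vale.Agent.P361.LRO

open Matrix Filter Topology Finset
open scoped ComplexOrder

section CMat

variable {ι : Type*}

/-- Complexification of a real matrix. -/
def cM (A : Matrix ι ι ℝ) : Matrix ι ι ℂ := A.map (fun r : ℝ => (r : ℂ))

theorem cM_apply (A : Matrix ι ι ℝ) (σ τ : ι) : cM A σ τ = (A σ τ : ℂ) := rfl

theorem cM_zero : cM (0 : Matrix ι ι ℝ) = 0 := by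
  ext i j; simp [cM_apply]

theorem cM_add (A B : Matrix ι ι ℝ) : cM (A + B) = cM A + cM B := by
  ext i j; simp [cM_apply]

theorem cM_sub (A B : Matrix ι ι ℝ) : cM (A - B) = cM A - cM B := by
  ext i j; simp [cM_apply]

theorem cM_neg (A : Matrix ι ι ℝ) : cM (-A) = -cM A := by
  ext i j; simp [cM_apply]

theorem cM_smul (c : ℝ) (A : Matrix ι ι ℝ) : cM (c • A) = (c : ℂ) • cM A := by
  ext i j; simp [cM_apply]

theorem cM_sum {κ : Type*} (s : Finset κ) (A : κ → Matrix ι ι ℝ) :
    cM (∑ k ∈ s, A k) = ∑ k ∈ s, cM (A k) := by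
  ext i j; simp [cM_apply, Matrix.sum_apply]

theorem cM_list_sum (l : List (Matrix ι ι ℝ)) : cM l.sum = (l.map cM).sum := by
  induction l with
  | nil => simp [cM_zero]
  | cons a l ih => rw [List.sum_cons, List.map_cons, List.sum_cons, cM_add, ih]

theorem cM_conjTranspose (A : Matrix ι ι ℝ) : (cM A)ᴴ = cM Aᵀ := by
  ext i j; simp [cM_apply, Matrix.conjTranspose_apply]

theorem cM_isHermitian {A : Matrix ι ι ℝ} (hA : A.IsSymm) : (cM A).IsHermitian := by
  rw [Matrix.IsHermitian, cM_conjTranspose, hA]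

theorem cM_injective : Function.Injective (cM (ι := ι)) := by
  intro A B h
  ext i j
  have := congrFun (congrFun h i) j
  rw [cM_apply, cM_apply] at this
  exact_mod_cast this

variable [Fintype ι]

theorem cM_mul (A B : Matrix ι ι ℝ) : cM (A * B) = cM A * cM B := by
  ext i j; simp [cM_apply, Matrix.mul_apply]

theorem trace_cM (A : Matrix ι ι ℝ) : trace (cM A) = (trace A : ℝ) := by
  simp [Matrix.trace, cM_apply]

theorem trace_cM_re (A : Matrix ι ι ℝ) : (trace (cM A)).re = trace A := by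
  rw [trace_cM, Complex.ofReal_re]

variable [DecidableEq ι]

omit [Fintype ι] in
theorem cM_one : cM (1 : Matrix ι ι ℝ) = 1 := by
  ext i j
  by_cases h : i = j
  · subst h; simp [cM_apply]
  · simp [cM_apply, h]

open scoped Matrix.Norms.Operator in
theorem exp_cM (A : Matrix ι ι ℝ) : NormedSpace.exp (cM A) = cM (NormedSpace.exp A) := by
  have hc : Continuous (Complex.ofRealHom.mapMatrix : Matrix ι ι ℝ →+* Matrix ι ι ℂ) := by
    refine continuous_matrix fun i j => ?_
    exact Complex.continuous_ofReal.comp (continuous_id.matrix_elem i j)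
  exact (NormedSpace.map_exp (Complex.ofRealHom.mapMatrix : Matrix ι ι ℝ →+* Matrix ι ι ℂ)
    hc A).symm

theorem cM_posSemidef {A : Matrix ι ι ℝ} (hA : A.PosSemidef) : (cM A).PosSemidef := by
  obtain ⟨B, rfl⟩ : ∃ B : Matrix ι ι ℝ, A = Bᴴ * B := by
    open scoped MatrixOrder in
    obtain ⟨b, hb⟩ := CStarAlgebra.nonneg_iff_eq_star_mul_self.mp hA.nonneg
    exact ⟨b, hb⟩
  have h1 : cM (Bᴴ * B) = (cM B)ᴴ * cM B := by
    rw [cM_mul, cM_conjTranspose]; rfl
  rw [h1]
  exact Matrix.posSemidef_conjTranspose_mul_self _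

theorem trace_exp_pos_real [Nonempty ι] {X : Matrix ι ι ℝ} (hX : X.IsSymm) :
    0 < trace (NormedSpace.exp X) := by
  have h := trace_exp_pos (cM_isHermitian hX)
  rwa [exp_cM, trace_cM_re] at h

theorem trace_exp_mul_nonneg_real {X Y : Matrix ι ι ℝ} (hX : X.IsSymm) (hY : Y.PosSemidef) :
    0 ≤ trace (NormedSpace.exp X * Y) := by
  have h := trace_exp_mul_nonneg (cM_isHermitian hX) (cM_posSemidef hY)
  rwa [exp_cM, ← cM_mul, trace_cM_re] at h

/-- Peierls–Bogoliubov for real symmetric matrices. -/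
theorem peierls_bogoliubov_real [Nonempty ι] {X Y : Matrix ι ι ℝ} (hX : X.IsSymm)
    (hY : Y.IsSymm) :
    Real.log (trace (NormedSpace.exp X)) +
      trace (NormedSpace.exp X * Y) / trace (NormedSpace.exp X) ≤
      Real.log (trace (NormedSpace.exp (X + Y))) := by
  have h := Vale.Agent.P361.peierls_bogoliubov (cM_isHermitian hX) (cM_isHermitian hY)
  rwa [← cM_add, exp_cM, exp_cM, ← cM_mul, trace_cM_re, trace_cM_re, trace_cM_re] at h

theorem trace_exp_mono_real [Nonempty ι] {X Y : Matrix ι ι ℝ} (hX : X.IsSymm) (hY : Y.IsSymm)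
    (hXY : (Y - X).PosSemidef) :
    trace (NormedSpace.exp X) ≤ trace (NormedSpace.exp Y) := by
  have h := trace_exp_mono (cM_isHermitian hX) (cM_isHermitian hY)
    (by rw [← cM_sub]; exact cM_posSemidef hXY)
  rwa [exp_cM, exp_cM, trace_cM_re, trace_cM_re] at h

end CMat

end Vale.Agent.P361.LRO
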