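import Vale.Agent.P361.LRO.Fin.TorusPress
import Vale.Agent.P361.LRO.Fin.CMat
import Vale.Agent.P361.LRO.Defs

/-!
Bridge between the real swap model of `LRO/Defs.lean` and `Model.hamiltonian 1`.
-/

namespace Vale.Agent.P361.LRO

open Matrix Filter Topology Finset
open scoped ComplexOrder

section Pair

variable {V : Type} [Fintype V] [DecidableEq V] {d : Type*} [Fintype d] [DecidableEq d]

theorem siteOpV_pair_apply {x y : V} (hxy : x ≠ y) (A B : Matrix d d ℂ) (σ τ : V → d) :
    (siteOpV x A * siteOpV y B) σ τ = A (σ x) (τ x) * (B (σ y) (τ y) *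
      ∏ z ∈ (Finset.univ.erase x).erase y, (1 : Matrix d d ℂ) (σ z) (τ z)) := by
  simp only [siteOpV, prodOp_mul]
  simp only [prodOp, Matrix.of_apply]
  rw [← Finset.mul_prod_erase _ _ (Finset.mem_univ x),
    ← Finset.mul_prod_erase _ _ (Finset.mem_erase.2 ⟨hxy.symm, Finset.mem_univ y⟩)]
  congr 1
  · simp [hxy]
  · congr 1
    · simp [hxy.symm]
    · refine Finset.prod_congr rfl fun z hz => ?_
      have h1 := Finset.ne_of_mem_erase hz
      have h2 := Finset.ne_of_mem_erase (Finset.mem_of_mem_erase hz)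
      rw [if_neg h1, if_neg h2, Matrix.one_mul]

end Pair

theorem spinLower_one : spinLower 1 = !![0, 0; 1, 0] := by
  ext i j
  fin_cases i <;> fin_cases j <;> simp [spinLower]

theorem spin_one_sum (i i' j j' : Fin 2) :
    ∑ a : Fin 3, spin 1 a i i' * spin 1 a j j' =
      (1 / 2 : ℂ) * (if i = j' ∧ j = i' then 1 else 0) -
        (1 / 4 : ℂ) * (if i = i' ∧ j = j' then 1 else 0) := by
  have h0 : spin 1 0 = (1 / 2 : ℂ) • ((spinLower 1)ᴴ + spinLower 1) := rfl
  have h1 : spin 1 1 = (1 / (2 * Complex.I) : ℂ) • ((spinLower 1)ᴴ - spinLower 1) := rfl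
  have h2 : spin 1 2 = spinZ 1 := rfl
  rw [Fin.sum_univ_three, h0, h1, h2, spinLower_one]
  fin_cases i <;> fin_cases i' <;> fin_cases j <;> fin_cases j' <;>
    simp [spinZ, Matrix.conjTranspose, Matrix.transpose, Matrix.diagonal] <;>
    first
    | done
    | (ring_nf; rw [Complex.I_sq]; norm_num)
    | norm_num

section Gen

variable {V : Type} [Fintype V] [DecidableEq V]

theorem cM_swap {x y : V} (hxy : x ≠ y) :
    cM (swapM x y) = (2 : ℂ) • ∑ a : Fin 3, siteOpV x (spin 1 a) * siteOpV y (spin 1 a) +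
      (1 / 2 : ℂ) • (1 : Matrix (V → Fin 2) (V → Fin 2) ℂ) := by
  ext σ τ
  rw [cM_apply, Matrix.add_apply, Matrix.smul_apply, Matrix.smul_apply, Matrix.sum_apply]
  simp only [siteOpV_pair_apply hxy]
  rw [show (∑ a : Fin 3, spin 1 a (σ x) (τ x) * (spin 1 a (σ y) (τ y) *
      ∏ z ∈ (Finset.univ.erase x).erase y, (1 : Matrix (Fin 2) (Fin 2) ℂ) (σ z) (τ z))) =
      (∑ a : Fin 3, spin 1 a (σ x) (τ x) * spin 1 a (σ y) (τ y)) *
      ∏ z ∈ (Finset.univ.erase x).erase y, (1 : Matrix (Fin 2) (Fin 2) ℂ) (σ z) (τ z) by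
    rw [Finset.sum_mul]; exact Finset.sum_congr rfl fun a _ => by ring]
  rw [spin_one_sum]
  have hprod : (∏ z ∈ (Finset.univ.erase x).erase y,
      (1 : Matrix (Fin 2) (Fin 2) ℂ) (σ z) (τ z)) =
      if (∀ z, z ≠ x → z ≠ y → σ z = τ z) then 1 else 0 := by
    split_ifs with h
    · refine Finset.prod_eq_one fun z hz => ?_
      have h1 := Finset.ne_of_mem_erase hz
      have h2 := Finset.ne_of_mem_erase (Finset.mem_of_mem_erase hz)
      rw [Matrix.one_apply, if_pos (h z h2 h1)]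
    · push Not at h
      obtain ⟨z, h1, h2, h3⟩ := h
      refine Finset.prod_eq_zero (i := z) ?_ (by rw [Matrix.one_apply, if_neg h3])
      exact Finset.mem_erase.2 ⟨h2, Finset.mem_erase.2 ⟨h1, Finset.mem_univ z⟩⟩
  rw [hprod]
  have hsw : (σ = τ ∘ Equiv.swap x y) ↔
      ((σ x = τ y ∧ σ y = τ x) ∧ ∀ z, z ≠ x → z ≠ y → σ z = τ z) := by
    constructor
    · intro h
      refine ⟨⟨by rw [h]; simp, by rw [h]; simp⟩, fun z h1 h2 => by
        rw [h]; simp [Equiv.swap_apply_of_ne_of_ne h1 h2]⟩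
    · rintro ⟨⟨h1, h2⟩, h3⟩
      funext z
      simp only [Function.comp_apply]
      by_cases hz : z = x
      · subst hz; simpa using h1
      · by_cases hz2 : z = y
        · subst hz2; simpa using h2
        · rw [Equiv.swap_apply_of_ne_of_ne hz hz2]; exact h3 z hz hz2
  have hone : (σ = τ) ↔ ((σ x = τ x ∧ σ y = τ y) ∧ ∀ z, z ≠ x → z ≠ y → σ z = τ z) := by
    constructor
    · rintro rfl; simp
    · rintro ⟨⟨h1, h2⟩, h3⟩
      funext z
      by_cases hz : z = x
      · subst hz; exact h1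
      · by_cases hz2 : z = y
        · subst hz2; exact h2
        · exact h3 z hz hz2
  rw [swapM, Matrix.of_apply, Matrix.one_apply]
  simp only [hsw, hone, smul_eq_mul]
  have key : ∀ (P1 P2 P3 : Prop) [Decidable P1] [Decidable P2] [Decidable P3],
      (((if P1 ∧ P3 then (1 : ℝ) else 0) : ℝ) : ℂ) =
        2 * (((1 / 2 : ℂ) * (if P1 then 1 else 0) - (1 / 4 : ℂ) * (if P2 then 1 else 0)) *
          (if P3 then 1 else 0)) + 1 / 2 * (if P2 ∧ P3 then 1 else 0) := by
    intro P1 P2 P3 _ _ _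
    by_cases h1 : P1 <;> by_cases h2 : P2 <;> by_cases h3 : P3 <;> simp [h1, h2, h3] <;> norm_num
  exact key _ _ _

theorem cM_sz (x : V) : cM (szM x) = (2 : ℂ) • siteOpV x (spin 1 2) := by
  ext σ τ
  rw [cM_apply, Matrix.smul_apply, siteOpV_apply, szM]
  have h2 : spin 1 2 = spinZ 1 := rfl
  by_cases h : σ = τ
  · subst h
    rw [Matrix.diagonal_apply_eq, Finset.prod_eq_one (fun z _ => by rw [Matrix.one_apply_eq]), h2]
    simp only [spinZ, Matrix.diagonal_apply_eq]
    rcases Fin.exists_fin_two.1 ⟨σ x, rfl⟩ with h | h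
    · rw [h]; norm_num
    · rw [h]; norm_num
  · rw [Matrix.diagonal_apply_ne _ h]
    by_cases hx : σ x = τ x
    · have : ∃ z, z ≠ x ∧ σ z ≠ τ z := by
        by_contra hcon
        push Not at hcon
        apply h
        funext z
        by_cases hz : z = x
        · subst hz; exact hx
        · exact hcon z hz
      obtain ⟨z, hz, hz2⟩ := this
      rw [Finset.prod_eq_zero (Finset.mem_erase.2 ⟨hz, Finset.mem_univ z⟩)
        (by rw [Matrix.one_apply, if_neg hz2])]
      simp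
    · rw [h2, spinZ, Matrix.diagonal_apply_ne _ hx]
      simp

end Gen

end Vale.Agent.P361.LRO
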