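import Vale.Agent.P361.LRO.Fin.Main
import Vale.Agent.P361.LRO.Top.Boot
import Vale.Agent.P361.LRO.Top.Start
import Vale.Agent.P361.LRO.Top.Trans

/-! # The spontaneous magnetization from the four block statements -/

namespace Vale.Agent.P361.LRO

theorem lro_of (h6 : KappaStmt) (h1 : TwistStmt) (h7 : EnergyStmt) (h8 : RegStmt) :
    ∃ β0 : ℝ, 0 < β0 ∧ ∀ β : ℝ, β0 ≤ β → 1 / 2 - β ^ (-(1 / 100) : ℝ) ≤ Model.spontMag 1 β :=
  main_of_boot (bootStmt_of h6 h1 h7 h8 startStmt transStmt)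

end Vale.Agent.P361.LRO
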