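import Vale.Agent.P361.DblComm
import Vale.Agent.P361.Model

/-!
Heisenberg model on a general finite graph: the exponent `-β (H_J - h M)`, the supporting line
inequality in `h`, and the dependence of the logarithm of the partition function on the graph.
-/

namespace Vale.Agent.P361.LRO

open Matrix Filter Topology Finset
open scoped ComplexOrder

section General

variable {V : Type} [Fintype V] [DecidableEq V]

/-- The exponent `-β (H_J - h M)`. -/
noncomputable def expoV (n : ℕ) (J : V → V → Prop) [DecidableRel J] (β h : ℝ) : Model.Op n V :=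
  -(β : ℂ) • (Model.hamiltonian n J - (h : ℂ) • Model.magnetization n V)

/-- Number of ordered pairs `(x, y)` with `J x y`. -/
noncomputable def pairsV (J : V → V → Prop) [DecidableRel J] : ℝ :=
  ∑ x : V, ∑ y : V, if J x y then (1 : ℝ) else 0

theorem totOp_eqV (n : ℕ) (J : V → V → Prop) [DecidableRel J] (β h c φ₀ : ℝ) :
    totOp (V := V) (β / 2) c (spin n)
      ((φ₀ : ℂ) • (1 : Matrix (Fin (n + 1)) (Fin (n + 1)) ℂ) + ((β * h : ℝ) : ℂ) • spin n 2) J =
      expoV n J β h + (((β / 2) * c * pairsV J + φ₀ * Fintype.card V : ℝ) : ℂ) •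
        (1 : Matrix (V → Fin (n + 1)) (V → Fin (n + 1)) ℂ) := by
  have hH : Model.hamiltonian n J = -((1 / 2 : ℂ) • ∑ x : V, ∑ y : V,
      if J x y then ∑ a : Fin 3, siteOpV x (spin n a) * siteOpV y (spin n a) else 0) := rfl
  have hM : Model.magnetization n V = ∑ x : V, siteOpV x (spin n 2) := rfl
  unfold totOp expoV pairsV pairOp
  rw [hH, hM]
  simp only [siteOpV_add, siteOpV_smul, siteOpV_one]
  have e1 : (∑ x : V, ∑ y : V, if J x y then
      ((c : ℂ) • (1 : Matrix (V → Fin (n + 1)) (V → Fin (n + 1)) ℂ) +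
        ∑ a, siteOpV x (spin n a) * siteOpV y (spin n a)) else 0) =
      ((c * ∑ x : V, ∑ y : V, (if J x y then (1 : ℝ) else 0) : ℝ) : ℂ) •
        (1 : Matrix (V → Fin (n + 1)) (V → Fin (n + 1)) ℂ) +
      ∑ x : V, ∑ y : V, if J x y then
        ∑ a, siteOpV x (spin n a) * siteOpV y (spin n a) else 0 := by
    push_cast
    rw [Finset.mul_sum, Finset.sum_smul, ← Finset.sum_add_distrib]
    refine Finset.sum_congr rfl fun x _ => ?_
    rw [Finset.mul_sum, Finset.sum_smul, ← Finset.sum_add_distrib]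
    refine Finset.sum_congr rfl fun y _ => ?_
    split_ifs <;> simp
  rw [e1, Finset.sum_add_distrib, Finset.sum_const, Finset.card_univ, ← Finset.smul_sum]
  push_cast
  module

theorem fieldF_isHermitian (n : ℕ) (φ₀ r : ℝ) :
    ((φ₀ : ℂ) • (1 : Matrix (Fin (n + 1)) (Fin (n + 1)) ℂ) +
      ((r : ℝ) : ℂ) • spin n 2).IsHermitian := by
  rw [Matrix.IsHermitian, Matrix.conjTranspose_add, Matrix.conjTranspose_smul,
    Matrix.conjTranspose_smul, spin_isHermitian n 2, Matrix.conjTranspose_one]
  simp only [RCLike.star_def, Complex.conj_ofReal]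

theorem expoV_isHermitian (n : ℕ) (J : V → V → Prop) [DecidableRel J] (hJ : ∀ x, ¬ J x x)
    (β h : ℝ) : (expoV n J β h).IsHermitian := by
  have h1 := totOp_eqV n J β h 0 0
  have h2 := totOp_isHermitian (V := V) (β / 2) 0 (spin_isHermitian n)
    (F := ((0 : ℝ) : ℂ) • (1 : Matrix (Fin (n + 1)) (Fin (n + 1)) ℂ) +
      ((β * h : ℝ) : ℂ) • spin n 2) (fieldF_isHermitian n 0 (β * h)) J hJ
  rw [h1] at h2
  simpa only [mul_zero, zero_mul, add_zero, Complex.ofReal_zero, zero_smul] using h2

theorem logTr_eq (n : ℕ) (J : V → V → Prop) [DecidableRel J] (β h : ℝ) :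
    Model.logTr n J β h = Real.log (trace (NormedSpace.exp (expoV n J β h))).re := rfl

/-- Total magnetization `⟨M⟩` of the Gibbs state of `H_J - h M`. -/
noncomputable def gibbsMagV (n : ℕ) (J : V → V → Prop) [DecidableRel J] (β h : ℝ) : ℝ :=
  (trace (NormedSpace.exp (expoV n J β h) * Model.magnetization n V)).re /
    (trace (NormedSpace.exp (expoV n J β h))).re

theorem magnetizationV_isHermitian (n : ℕ) : (Model.magnetization n V).IsHermitian := by
  have hM : Model.magnetization n V = ∑ x : V, siteOpV x (spin n 2) := rfl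
  rw [hM, Matrix.IsHermitian, Matrix.conjTranspose_sum]
  exact Finset.sum_congr rfl fun x _ => siteOpV_isHermitian x (spin_isHermitian n 2)

theorem expoV_shift (n : ℕ) (J : V → V → Prop) [DecidableRel J] (β h h' : ℝ) :
    expoV n J β h' = expoV n J β h + ((β * (h' - h) : ℝ) : ℂ) • Model.magnetization n V := by
  unfold expoV
  push_cast
  module

/-- Supporting line inequality for the logarithm of the partition function. -/
theorem logTr_support (n : ℕ) (J : V → V → Prop) [DecidableRel J] (hJ : ∀ x, ¬ J x x)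
    (β h h' : ℝ) :
    Model.logTr n J β h + β * (h' - h) * gibbsMagV n J β h ≤ Model.logTr n J β h' := by
  have hY : (((β * (h' - h) : ℝ) : ℂ) • Model.magnetization n V).IsHermitian := by
    rw [Matrix.IsHermitian, Matrix.conjTranspose_smul, magnetizationV_isHermitian n]
    simp
  have h1 := Vale.Agent.P361.peierls_bogoliubov (expoV_isHermitian n J hJ β h) hY
  rw [← expoV_shift] at h1
  rw [logTr_eq, logTr_eq]
  refine le_trans (le_of_eq ?_) h1
  congr 1
  rw [Matrix.mul_smul, Matrix.trace_smul, smul_eq_mul, Complex.re_ofReal_mul]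
  unfold gibbsMagV
  ring

theorem logZ_eqV (n : ℕ) (J : V → V → Prop) [DecidableRel J] (hJ : ∀ x, ¬ J x x)
    (β h c φ₀ : ℝ) :
    logZ (V := V) (β / 2) c (spin n)
      ((φ₀ : ℂ) • (1 : Matrix (Fin (n + 1)) (Fin (n + 1)) ℂ) + ((β * h : ℝ) : ℂ) • spin n 2) J =
      Model.logTr n J β h + ((β / 2) * c * pairsV J + φ₀ * Fintype.card V) := by
  unfold logZ
  rw [totOp_eqV, trace_exp_add_smul_one, Real.log_mul (Real.exp_pos _).ne'
    (trace_exp_pos (expoV_isHermitian n J hJ β h)).ne', Real.log_exp, logTr_eq]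
  ring

/-- Invariance under relabelling of the sites. -/
theorem logTr_relabel {W : Type} [Fintype W] [DecidableEq W] (g : V ≃ W) (n : ℕ)
    (J : W → W → Prop) [DecidableRel J] (hJ : ∀ x, ¬ J x x) (β h : ℝ) :
    Model.logTr n (fun x y : V => J (g x) (g y)) β h = Model.logTr n J β h := by
  have h1 := logZ_eqV n J hJ β h 0 0
  have h2 := logZ_eqV n (fun x y : V => J (g x) (g y)) (fun x => hJ (g x)) β h 0 0
  have h3 := logZ_relabel g (β / 2) 0 (spin n)
    (((0 : ℝ) : ℂ) • (1 : Matrix (Fin (n + 1)) (Fin (n + 1)) ℂ) + ((β * h : ℝ) : ℂ) • spin n 2) J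
  rw [h1, h2] at h3
  simpa using h3

/-- Adding pairs to the graph changes the logarithm of the partition function by at most
`β c / 2` per ordered pair. -/
theorem logTr_mono_pairs (n : ℕ) {c : ℝ}
    (hc : ((c : ℂ) • (1 : Matrix (Fin (n + 1)) (Fin (n + 1)) ℂ) -
      ∑ a, spin n a * spin n a).PosSemidef)
    (J J' : V → V → Prop) [DecidableRel J] [DecidableRel J'] (hJ : ∀ x, ¬ J x x)
    (hJ' : ∀ x, ¬ J' x x) (hJJ : ∀ x y, J x y → J' x y) {β : ℝ} (hβ : 0 ≤ β) (h : ℝ) :
    |Model.logTr n J' β h - Model.logTr n J β h| ≤ (β / 2) * c * (pairsV J' - pairsV J) := by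
  have hb : 0 ≤ β / 2 := by positivity
  set F : Matrix (Fin (n + 1)) (Fin (n + 1)) ℂ :=
    ((0 : ℝ) : ℂ) • (1 : Matrix (Fin (n + 1)) (Fin (n + 1)) ℂ) + ((β * h : ℝ) : ℂ) • spin n 2
    with hF
  have hFh : F.IsHermitian := fieldF_isHermitian n 0 (β * h)
  have h1 := totOp_isHermitian (V := V) (β / 2) c (spin_isHermitian n) hFh J hJ
  have h2 := totOp_isHermitian (V := V) (β / 2) c (spin_isHermitian n) hFh J' hJ'
  have hpos : (totOp (V := V) (β / 2) c (spin n) F J' -
      totOp (V := V) (β / 2) c (spin n) F J).PosSemidef := by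
    have e : totOp (V := V) (β / 2) c (spin n) F J' - totOp (V := V) (β / 2) c (spin n) F J =
        ((β / 2 : ℝ) : ℂ) • ∑ x : V, ∑ y : V,
          if J' x y ∧ ¬ J x y then pairOp c (spin n) x y else 0 := by
      unfold totOp
      rw [add_sub_add_right_eq_sub, ← smul_sub, ← Finset.sum_sub_distrib]
      congr 1
      refine Finset.sum_congr rfl fun x _ => ?_
      rw [← Finset.sum_sub_distrib]
      refine Finset.sum_congr rfl fun y _ => ?_
      by_cases h1 : J x y
      · simp [h1, hJJ x y h1]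
      · by_cases h2 : J' x y <;> simp [h1, h2]
    rw [e]
    refine Matrix.PosSemidef.smul ?_ (by simpa only [Complex.zero_le_real] using hb)
    refine Matrix.posSemidef_sum _ fun x _ => Matrix.posSemidef_sum _ fun y _ => ?_
    split_ifs with h
    · refine pairOp_posSemidef (spin_isHermitian n) hc ?_
      rintro rfl
      exact hJ' _ h.1
    · exact Matrix.PosSemidef.zero
  have hpos2 : ((totOp (V := V) (β / 2) c (spin n) F J +
      ((β * c * (pairsV J' - pairsV J) : ℝ) : ℂ) •
        (1 : Matrix (V → Fin (n + 1)) (V → Fin (n + 1)) ℂ)) -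
      totOp (V := V) (β / 2) c (spin n) F J').PosSemidef := by
    have e : (totOp (V := V) (β / 2) c (spin n) F J +
      ((β * c * (pairsV J' - pairsV J) : ℝ) : ℂ) •
        (1 : Matrix (V → Fin (n + 1)) (V → Fin (n + 1)) ℂ)) -
      totOp (V := V) (β / 2) c (spin n) F J' =
        ((β / 2 : ℝ) : ℂ) • ∑ x : V, ∑ y : V,
          if J' x y ∧ ¬ J x y then (((2 * c : ℝ) : ℂ) •
            (1 : Matrix (V → Fin (n + 1)) (V → Fin (n + 1)) ℂ) - pairOp c (spin n) x y)
          else 0 := by
      unfold totOp pairsV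
      have e2 : ((β * c * ((∑ x : V, ∑ y : V, if J' x y then (1 : ℝ) else 0) -
          ∑ x : V, ∑ y : V, if J x y then (1 : ℝ) else 0) : ℝ) : ℂ) •
          (1 : Matrix (V → Fin (n + 1)) (V → Fin (n + 1)) ℂ) =
          ((β / 2 : ℝ) : ℂ) • ∑ x : V, ∑ y : V,
            if J' x y ∧ ¬ J x y then (((2 * c : ℝ) : ℂ) •
              (1 : Matrix (V → Fin (n + 1)) (V → Fin (n + 1)) ℂ)) else 0 := by
        have e3 : (∑ x : V, ∑ y : V, if J' x y ∧ ¬ J x y then (((2 * c : ℝ) : ℂ) •
            (1 : Matrix (V → Fin (n + 1)) (V → Fin (n + 1)) ℂ)) else 0) =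
            ((∑ x : V, ∑ y : V, if J' x y ∧ ¬ J x y then (1 : ℝ) else 0 : ℝ) : ℂ) •
            (((2 * c : ℝ) : ℂ) • (1 : Matrix (V → Fin (n + 1)) (V → Fin (n + 1)) ℂ)) := by
          push_cast
          rw [Finset.sum_smul]
          refine Finset.sum_congr rfl fun x _ => ?_
          rw [Finset.sum_smul]
          refine Finset.sum_congr rfl fun y _ => ?_
          split_ifs <;> simp
        have e4 : (∑ x : V, ∑ y : V, if J' x y ∧ ¬ J x y then (1 : ℝ) else 0) =
            (∑ x : V, ∑ y : V, if J' x y then (1 : ℝ) else 0) -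
              ∑ x : V, ∑ y : V, if J x y then (1 : ℝ) else 0 := by
          rw [← Finset.sum_sub_distrib]
          refine Finset.sum_congr rfl fun x _ => ?_
          rw [← Finset.sum_sub_distrib]
          refine Finset.sum_congr rfl fun y _ => ?_
          by_cases h1 : J x y
          · simp [h1, hJJ x y h1]
          · by_cases h2 : J' x y <;> simp [h1, h2]
        rw [e3, e4, smul_smul, smul_smul]
        congr 1
        push_cast
        ring
      rw [e2]
      have e5 : (∑ x : V, ∑ y : V, if J' x y ∧ ¬ J x y then (((2 * c : ℝ) : ℂ) •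
            (1 : Matrix (V → Fin (n + 1)) (V → Fin (n + 1)) ℂ) - pairOp c (spin n) x y)
          else 0) = (∑ x : V, ∑ y : V, if J' x y ∧ ¬ J x y then (((2 * c : ℝ) : ℂ) •
              (1 : Matrix (V → Fin (n + 1)) (V → Fin (n + 1)) ℂ)) else 0) -
            ((∑ x : V, ∑ y : V, if J' x y then pairOp c (spin n) x y else 0) -
            ∑ x : V, ∑ y : V, if J x y then pairOp c (spin n) x y else 0) := by
        rw [← Finset.sum_sub_distrib, ← Finset.sum_sub_distrib]
        refine Finset.sum_congr rfl fun x _ => ?_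
        rw [← Finset.sum_sub_distrib, ← Finset.sum_sub_distrib]
        refine Finset.sum_congr rfl fun y _ => ?_
        by_cases h1 : J x y
        · simp [h1, hJJ x y h1]
        · by_cases h2 : J' x y <;> simp [h1, h2]
      rw [e5]
      module
    rw [e]
    refine Matrix.PosSemidef.smul ?_ (by simpa only [Complex.zero_le_real] using hb)
    refine Matrix.posSemidef_sum _ fun x _ => Matrix.posSemidef_sum _ fun y _ => ?_
    split_ifs with h
    · refine pairOp_upper (spin_isHermitian n) hc ?_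
      rintro rfl
      exact hJ' _ h.1
    · exact Matrix.PosSemidef.zero
  have h3 : (((β * c * (pairsV J' - pairsV J) : ℝ) : ℂ) •
        (1 : Matrix (V → Fin (n + 1)) (V → Fin (n + 1)) ℂ)).IsHermitian := by
    rw [Matrix.IsHermitian, Matrix.conjTranspose_smul, Matrix.conjTranspose_one]
    simp only [RCLike.star_def, Complex.conj_ofReal]
  have i1 := Real.log_le_log (trace_exp_pos h1) (trace_exp_mono h1 h2 hpos)
  have i2 := Real.log_le_log (trace_exp_pos h2) (trace_exp_mono h2 (h1.add h3) hpos2)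
  rw [trace_exp_add_smul_one, Real.log_mul (Real.exp_pos _).ne' (trace_exp_pos h1).ne',
    Real.log_exp] at i2
  have l1 := logZ_eqV n J hJ β h c 0
  have l2 := logZ_eqV n J' hJ' β h c 0
  unfold logZ at l1 l2
  rw [← hF] at l1 l2
  rw [l1, l2] at i1 i2
  rw [abs_le]
  constructor <;> nlinarith [i1, i2]

end General

end Vale.Agent.P361.LRO
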