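import Vale.Agent.P361.LRO.Fin.Torus

/-! # The torus pressure converges to the pressure. -/

namespace Vale.Agent.P361.LRO.Fin

open Matrix Filter Topology Finset
open scoped ComplexOrder Kronecker

section

variable {N : ℕ}

/-- Free boundary adjacency transported to the torus. -/
def freeNN (N : ℕ) (x y : Tor (2 * N + 1)) : Prop :=
  ∑ i, |(x i).valMinAbs - (y i).valMinAbs| = 1

instance : DecidableRel (freeNN N) := fun x y => by unfold freeNN; infer_instance

theorem valMinAbs_bound (a : ZMod (2 * N + 1)) : -(N : ℤ) ≤ a.valMinAbs ∧ a.valMinAbs ≤ N := by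
  have h := ZMod.valMinAbs_mem_Ioc a
  rw [Set.mem_Ioc] at h
  push_cast at h
  constructor <;> omega

theorem valMinAbs_cast {z : ℤ} (h1 : -(N : ℤ) ≤ z) (h2 : z ≤ N) :
    ((z : ZMod (2 * N + 1))).valMinAbs = z := by
  rw [ZMod.valMinAbs_spec]
  refine ⟨by simp, ?_⟩
  rw [Set.mem_Ioc]
  push_cast
  constructor <;> omega

/-- The torus of side `2N+1` and the box `Λ_N`. -/
noncomputable def torBox (N : ℕ) : Tor (2 * N + 1) ≃ Model.box N where
  toFun x := ⟨fun i => (x i).valMinAbs, by
    unfold Model.box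
    rw [Finset.mem_Icc, Pi.le_def, Pi.le_def]
    exact ⟨fun i => (valMinAbs_bound (x i)).1, fun i => (valMinAbs_bound (x i)).2⟩⟩
  invFun x := fun i => ((x.1 i : ℤ) : ZMod (2 * N + 1))
  left_inv x := by
    funext i
    simp
  right_inv x := by
    have hx := x.2
    unfold Model.box at hx
    rw [Finset.mem_Icc, Pi.le_def, Pi.le_def] at hx
    apply Subtype.ext
    funext i
    exact valMinAbs_cast (hx.1 i) (hx.2 i)

theorem freeNN_iff (x y : Tor (2 * N + 1)) :
    freeNN N x y ↔ ∑ i, |(torBox N x).1 i - (torBox N y).1 i| = 1 := Iff.rfl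

theorem logTr_free (n N : ℕ) (β h : ℝ) :
    Model.logTr n (freeNN N) β h =
      Model.logTr n (fun x y : Model.box N => ∑ i, |x.1 i - y.1 i| = 1) β h :=
  logTr_relabel (torBox N) n (fun x y : Model.box N => ∑ i, |x.1 i - y.1 i| = 1) β h

theorem abs_sum_eq_one {a : Fin 3 → ℤ} (h : ∑ i, |a i| = 1) :
    ∃ i, (a i = 1 ∨ a i = -1) ∧ ∀ j, j ≠ i → a j = 0 := by
  rw [Fin.sum_univ_three] at h
  have h0 := abs_nonneg (a 0)
  have h1 := abs_nonneg (a 1)
  have h2 := abs_nonneg (a 2)
  rcases Int.le_iff_eq_or_lt.mp h0 with e0 | e0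
  · have z0 : a 0 = 0 := abs_eq_zero.mp e0.symm
    rcases Int.le_iff_eq_or_lt.mp h1 with e1 | e1
    · have z1 : a 1 = 0 := abs_eq_zero.mp e1.symm
      have e2 : |a 2| = 1 := by rw [← e0, ← e1] at h; linarith
      refine ⟨2, eq_or_eq_neg_of_abs_eq e2, fun j hj => ?_⟩
      fin_cases j
      · exact z0
      · exact z1
      · exact absurd rfl hj
    · have e1' : |a 1| = 1 := by omega
      have z2 : a 2 = 0 := abs_eq_zero.mp (by omega)
      refine ⟨1, eq_or_eq_neg_of_abs_eq e1', fun j hj => ?_⟩
      fin_cases j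
      · exact z0
      · exact absurd rfl hj
      · exact z2
  · have e0' : |a 0| = 1 := by omega
    have z1 : a 1 = 0 := abs_eq_zero.mp (by omega)
    have z2 : a 2 = 0 := abs_eq_zero.mp (by omega)
    refine ⟨0, eq_or_eq_neg_of_abs_eq e0', fun j hj => ?_⟩
    fin_cases j
    · exact absurd rfl hj
    · exact z1
    · exact z2

theorem freeNN_torNN (x y : Tor (2 * N + 1)) (h : freeNN N x y) : torNN x y := by
  obtain ⟨i, hi, hj⟩ := abs_sum_eq_one (a := fun i => (x i).valMinAbs - (y i).valMinAbs) h
  have hc : ∀ a : ZMod (2 * N + 1), ((a.valMinAbs : ℤ) : ZMod (2 * N + 1)) = a := fun a =>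
    ZMod.coe_valMinAbs a
  have hne : ∀ j, j ≠ i → x j = y j := by
    intro j hji
    have h1 := hj j hji
    have h2 : (x j).valMinAbs = (y j).valMinAbs := by linarith
    rw [← hc (x j), ← hc (y j), h2]
  refine ⟨i, ?_⟩
  rcases hi with h1 | h1
  · right
    funext j
    by_cases hji : j = i
    · subst hji
      rw [Pi.add_apply, Pi.single_eq_same, ← hc (x j), ← hc (y j)]
      have : (x j).valMinAbs = (y j).valMinAbs + 1 := by linarith
      rw [this]
      simp
    · rw [Pi.add_apply, Pi.single_eq_of_ne hji, add_zero, hne j hji]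
  · left
    funext j
    by_cases hji : j = i
    · subst hji
      rw [Pi.add_apply, Pi.single_eq_same, ← hc (x j), ← hc (y j)]
      have : (y j).valMinAbs = (x j).valMinAbs + 1 := by linarith
      rw [this]
      simp
    · rw [Pi.add_apply, Pi.single_eq_of_ne hji, add_zero, hne j hji]

/-- Torus neighbours which are not free neighbours lie on the faces. -/
theorem face_of_not_free {x y : Tor (2 * N + 1)} {i : Fin 3} (hy : y = x + Pi.single i 1)
    (hf : ¬ freeNN N x y) : x i = (N : ZMod (2 * N + 1)) := by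
  by_contra hne
  apply hf
  have hc : ((((x i).valMinAbs : ℤ)) : ZMod (2 * N + 1)) = x i := ZMod.coe_valMinAbs (x i)
  have hb := valMinAbs_bound (x i)
  have hlt : (x i).valMinAbs < N := by
    refine lt_of_le_of_ne hb.2 fun h => hne ?_
    rw [← hc, h]
    simp
  have hyi : (y i).valMinAbs = (x i).valMinAbs + 1 := by
    have h1 : y i = (((x i).valMinAbs + 1 : ℤ) : ZMod (2 * N + 1)) := by
      rw [hy, Pi.add_apply, Pi.single_eq_same]
      simp
    rw [h1]
    exact valMinAbs_cast (by linarith [hb.1]) (by linarith)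
  have hyj : ∀ j, j ≠ i → y j = x j := by
    intro j hj
    rw [hy, Pi.add_apply, Pi.single_eq_of_ne hj, add_zero]
  unfold freeNN
  rw [Finset.sum_eq_single i]
  · rw [hyi]
    simp
  · intro j _ hj
    rw [hyj j hj]
    simp
  · intro h
    exact absurd (Finset.mem_univ i) h

theorem card_face {L : ℕ} [NeZero L] (i : Fin 3) (a : ZMod L) :
    ∑ x : Tor L, (if x i = a then (1 : ℝ) else 0) = (L : ℝ) ^ 2 := by
  have h1 : (Finset.univ.filter fun x : Tor L => x i = a) =
      Fintype.piFinset (fun j => if j = i then ({a} : Finset (ZMod L)) else Finset.univ) := by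
    ext x
    rw [Finset.mem_filter, Fintype.mem_piFinset]
    constructor
    · rintro ⟨-, hx⟩ j
      by_cases hj : j = i
      · subst hj
        rw [if_pos rfl, Finset.mem_singleton]
        exact hx
      · rw [if_neg hj]
        exact Finset.mem_univ _
    · intro hx
      have := hx i
      rw [if_pos rfl, Finset.mem_singleton] at this
      exact ⟨Finset.mem_univ _, this⟩
  rw [Finset.sum_ite, Finset.sum_const_zero, add_zero, Finset.sum_const, nsmul_eq_mul, mul_one,
    h1, Fintype.card_piFinset]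
  have h2 : ∀ j : Fin 3, (if j = i then ({a} : Finset (ZMod L)) else Finset.univ).card =
      if j = i then 1 else L := by
    intro j
    split_ifs
    · exact Finset.card_singleton a
    · rw [Finset.card_univ, ZMod.card]
  simp only [h2]
  push_cast
  rw [Fin.prod_univ_three]
  fin_cases i <;> simp <;> ring

theorem cnt_diff_le (N : ℕ) : cnt (torNN (L := 2 * N + 1)) - cnt (freeNN N) ≤
    6 * ((2 * N + 1 : ℕ) : ℝ) ^ 2 := by
  have hsplit : cnt (torNN (L := 2 * N + 1)) - cnt (freeNN N) ≤
      ∑ x : Tor (2 * N + 1), ∑ y : Tor (2 * N + 1), ∑ i : Fin 3,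
        ((if y = x + Pi.single i 1 then (if x i = (N : ZMod (2 * N + 1)) then (1 : ℝ) else 0)
          else 0) +
        (if x = y + Pi.single i 1 then (if y i = (N : ZMod (2 * N + 1)) then (1 : ℝ) else 0)
          else 0)) := by
    unfold cnt
    rw [← Finset.sum_sub_distrib]
    refine Finset.sum_le_sum fun x _ => ?_
    rw [← Finset.sum_sub_distrib]
    refine Finset.sum_le_sum fun y _ => ?_
    have hnn : ∀ i : Fin 3, (0 : ℝ) ≤
        ((if y = x + Pi.single i 1 then (if x i = (N : ZMod (2 * N + 1)) then (1 : ℝ) else 0)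
          else 0) +
        (if x = y + Pi.single i 1 then (if y i = (N : ZMod (2 * N + 1)) then (1 : ℝ) else 0)
          else 0)) := by
      intro i
      split_ifs <;> norm_num
    by_cases hf : freeNN N x y
    · rw [if_pos hf, if_pos (freeNN_torNN x y hf), sub_self]
      exact Finset.sum_nonneg fun i _ => hnn i
    · rw [if_neg hf, sub_zero]
      by_cases ht : torNN x y
      · rw [if_pos ht]
        obtain ⟨i, hi⟩ := ht
        refine le_trans ?_ (Finset.single_le_sum (f := fun i : Fin 3 =>
          ((if y = x + Pi.single i 1 then (if x i = (N : ZMod (2 * N + 1)) then (1 : ℝ) else 0)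
          else 0) +
        (if x = y + Pi.single i 1 then (if y i = (N : ZMod (2 * N + 1)) then (1 : ℝ) else 0)
          else 0))) (fun i _ => hnn i) (Finset.mem_univ i))
        rcases hi with hi | hi
        · have := face_of_not_free hi hf
          simp only [if_pos hi, if_pos this]
          split_ifs <;> norm_num
        · have hf' : ¬ freeNN N y x := by
            intro h
            apply hf
            unfold freeNN at h ⊢
            rw [← h]
            exact Finset.sum_congr rfl fun i _ => abs_sub_comm _ _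
          have := face_of_not_free hi hf'
          simp only [if_pos hi, if_pos this]
          split_ifs <;> norm_num
      · rw [if_neg ht]
        exact Finset.sum_nonneg fun i _ => hnn i
  refine hsplit.trans (le_of_eq ?_)
  simp only [Finset.sum_add_distrib]
  have A : ∑ x : Tor (2 * N + 1), ∑ y : Tor (2 * N + 1), ∑ i : Fin 3,
      (if y = x + Pi.single i 1 then (if x i = (N : ZMod (2 * N + 1)) then (1 : ℝ) else 0)
        else 0) = 3 * ((2 * N + 1 : ℕ) : ℝ) ^ 2 := by
    have : ∀ x : Tor (2 * N + 1), ∑ y : Tor (2 * N + 1), ∑ i : Fin 3,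
        (if y = x + Pi.single i 1 then (if x i = (N : ZMod (2 * N + 1)) then (1 : ℝ) else 0)
        else 0) = ∑ i : Fin 3, (if x i = (N : ZMod (2 * N + 1)) then (1 : ℝ) else 0) := by
      intro x
      rw [Finset.sum_comm]
      refine Finset.sum_congr rfl fun i _ => ?_
      rw [Finset.sum_ite_eq' Finset.univ (x + Pi.single i 1)
        (fun _ => if x i = (N : ZMod (2 * N + 1)) then (1 : ℝ) else 0)]
      simp
    simp only [this]
    rw [Finset.sum_comm]
    simp only [card_face]
    rw [Finset.sum_const, Finset.card_univ, Fintype.card_fin, nsmul_eq_mul]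
    norm_num
  have B : ∑ x : Tor (2 * N + 1), ∑ y : Tor (2 * N + 1), ∑ i : Fin 3,
      (if x = y + Pi.single i 1 then (if y i = (N : ZMod (2 * N + 1)) then (1 : ℝ) else 0)
        else 0) = 3 * ((2 * N + 1 : ℕ) : ℝ) ^ 2 := by
    rw [Finset.sum_comm]
    exact A
  rw [A, B]
  ring

end

theorem torNN_irrefl {N : ℕ} (hN : 0 < N) (x : Tor (2 * N + 1)) : ¬ torNN x x := by
  rintro ⟨i, h | h⟩ <;>
  · have h1 := congrFun h i
    rw [Pi.add_apply, Pi.single_eq_same, left_eq_add] at h1
    have : Fact (1 < 2 * N + 1) := ⟨by omega⟩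
    exact one_ne_zero h1

/-- The torus pressure. -/
noncomputable def torPressure (n N : ℕ) (β h : ℝ) : ℝ :=
  (β * ((2 * N + 1 : ℕ) : ℝ) ^ 3)⁻¹ * Model.logTr n (torNN (L := 2 * N + 1)) β h

theorem torPressure_tendsto (n : ℕ) {β : ℝ} (hβ : 0 < β) (h : ℝ) :
    Tendsto (fun N => torPressure n N β h) atTop (𝓝 (Model.pressure n β h)) := by
  have h0 : Tendsto (fun N => Model.finPressure n N β h) atTop (𝓝 (Model.pressure n β h)) :=
    pressure_tendsto n hβ h
  obtain ⟨c, hc0, hc⟩ := exists_upper_bound (X := ∑ a, spin n a * spin n a) (by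
    rw [Matrix.IsHermitian, Matrix.conjTranspose_sum]
    refine Finset.sum_congr rfl fun a _ => ?_
    rw [Matrix.conjTranspose_mul, spin_isHermitian n a])
  have hcard : ∀ N : ℕ, ((Model.box N).card : ℝ) = ((2 * N + 1 : ℕ) : ℝ) ^ 3 := by
    intro N
    have : (Model.box N).card = (2 * N + 1) ^ 3 := card_box N
    rw [this]
    push_cast
    ring
  have hbound : ∀ N : ℕ, 0 < N → |torPressure n N β h - Model.finPressure n N β h| ≤
      3 * c / ((2 * N + 1 : ℕ) : ℝ) := by
    intro N hN
    have h1 := logTr_compare n hc (freeNN N) (torNN (L := 2 * N + 1)) (torNN_irrefl hN)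
      (fun x y => freeNN_torNN x y) hβ h
    have h2 := cnt_diff_le N
    have hL : (0 : ℝ) < ((2 * N + 1 : ℕ) : ℝ) := by positivity
    have h3 : |Model.logTr n (torNN (L := 2 * N + 1)) β h - Model.logTr n (freeNN N) β h| ≤
        β / 2 * c * (6 * ((2 * N + 1 : ℕ) : ℝ) ^ 2) :=
      h1.trans (mul_le_mul_of_nonneg_left h2 (by positivity))
    have h4 : torPressure n N β h - Model.finPressure n N β h =
        (β * ((2 * N + 1 : ℕ) : ℝ) ^ 3)⁻¹ *
          (Model.logTr n (torNN (L := 2 * N + 1)) β h - Model.logTr n (freeNN N) β h) := by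
      unfold torPressure Model.finPressure
      rw [hcard, logTr_free]
      ring
    rw [h4, abs_mul, abs_of_pos (by positivity)]
    calc _ ≤ (β * ((2 * N + 1 : ℕ) : ℝ) ^ 3)⁻¹ * (β / 2 * c * (6 * ((2 * N + 1 : ℕ) : ℝ) ^ 2)) :=
          mul_le_mul_of_nonneg_left h3 (by positivity)
      _ = _ := by
        field_simp
        ring
  have hz : Tendsto (fun N : ℕ => 3 * c / ((2 * N + 1 : ℕ) : ℝ)) atTop (𝓝 0) := by
    refine Tendsto.div_atTop tendsto_const_nhds ?_
    refine tendsto_natCast_atTop_atTop.comp (tendsto_atTop_mono (fun n => ?_) tendsto_id)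
    simp only [id]; omega
  have hd : Tendsto (fun N => torPressure n N β h - Model.finPressure n N β h) atTop (𝓝 0) := by
    refine squeeze_zero_norm' ?_ hz
    filter_upwards [eventually_gt_atTop 0] with N hN
    rw [Real.norm_eq_abs]
    exact hbound N hN
  have := hd.add h0
  simpa using this

theorem torPressure_support (n : ℕ) {N : ℕ} (hN : 0 < N) {β : ℝ} (hβ : 0 < β) (h h' : ℝ) :
    torPressure n N β h + (h' - h) * (gm n (torNN (L := 2 * N + 1)) β h /
      ((2 * N + 1 : ℕ) : ℝ) ^ 3) ≤ torPressure n N β h' := by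
  have h1 := logTr_support n (torNN (L := 2 * N + 1)) (torNN_irrefl hN) β h h'
  have h2 := mul_le_mul_of_nonneg_left h1 (a := (β * ((2 * N + 1 : ℕ) : ℝ) ^ 3)⁻¹)
    (by positivity)
  unfold torPressure
  refine le_trans (le_of_eq ?_) h2
  field_simp

/-- **Block (9a).** If on large tori the magnetization per site at every small positive field is
at least `m`, then the spontaneous magnetization is at least `m`. -/
theorem le_spontMag_of_torus (n : ℕ) {β : ℝ} (hβ : 0 < β) (m : ℝ)
    (hyp : ∀ h : ℝ, 0 < h → h < 1 → ∀ᶠ N : ℕ in atTop,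
      m * ((2 * N + 1 : ℕ) : ℝ) ^ 3 ≤ gm n (torNN (L := 2 * N + 1)) β h) :
    m ≤ Model.spontMag n β := by
  -- slopes at positive fields
  have h1 : ∀ h' h : ℝ, 0 < h' → h' < 1 → h' ≤ h →
      m * (h - h') ≤ Model.pressure n β h - Model.pressure n β h' := by
    intro h' h h0 h1 hh
    refine ge_of_tendsto ((torPressure_tendsto n hβ h).sub (torPressure_tendsto n hβ h')) ?_
    filter_upwards [hyp h' h0 h1, eventually_gt_atTop 0] with N hN hN0
    have h2 := torPressure_support n hN0 hβ h' h
    have hL : (0 : ℝ) < ((2 * N + 1 : ℕ) : ℝ) ^ 3 := by positivity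
    have h3 : m ≤ gm n (torNN (L := 2 * N + 1)) β h' / ((2 * N + 1 : ℕ) : ℝ) ^ 3 := by
      rw [le_div_iff₀ hL]
      exact hN
    have h4 := mul_le_mul_of_nonneg_left h3 (sub_nonneg.2 hh)
    linarith
  have hconv : ConvexOn ℝ Set.univ (Model.pressure n β) := pressure_convex n hβ
  have hcont : Continuous (Model.pressure n β) := by
    rw [← continuousOn_univ]
    exact hconv.continuousOn isOpen_univ
  have h2 : ∀ h : ℝ, 0 < h → m * h ≤ Model.pressure n β h - Model.pressure n β 0 := by
    intro h hh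
    have t1 : Tendsto (fun h' => m * (h - h')) (𝓝[>] 0) (𝓝 (m * (h - 0))) :=
      ((tendsto_const_nhds.sub (tendsto_nhdsWithin_of_tendsto_nhds tendsto_id)).const_mul m)
    have t2 : Tendsto (fun h' => Model.pressure n β h - Model.pressure n β h') (𝓝[>] 0)
        (𝓝 (Model.pressure n β h - Model.pressure n β 0)) :=
      tendsto_const_nhds.sub (hcont.continuousAt.tendsto.mono_left nhdsWithin_le_nhds)
    rw [sub_zero] at t1
    refine le_of_tendsto_of_tendsto t1 t2 ?_
    have hm : min h 1 ∈ Set.Ioi (0 : ℝ) := lt_min hh one_pos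
    filter_upwards [Ioo_mem_nhdsGT (Set.mem_Ioi.1 hm)] with h' hh'
    exact h1 h' h hh'.1 (lt_of_lt_of_le hh'.2 (min_le_right _ _))
      (hh'.2.le.trans (min_le_left _ _))
  have h3 : HasDerivWithinAt (Model.pressure n β) (Model.spontMag n β) (Set.Ioi 0) 0 :=
    spontMag_hasDeriv n hβ
  rw [hasDerivWithinAt_iff_tendsto_slope] at h3
  have hdiff : Set.Ioi (0 : ℝ) \ {0} = Set.Ioi 0 := by
    ext x
    simp only [Set.mem_sdiff, Set.mem_Ioi, Set.mem_singleton_iff]
    exact ⟨fun h => h.1, fun h => ⟨h, h.ne'⟩⟩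
  rw [hdiff] at h3
  refine ge_of_tendsto h3 ?_
  filter_upwards [self_mem_nhdsWithin] with h hh
  have hh' : 0 < h := hh
  rw [slope_def_field, sub_zero, le_div_iff₀ hh']
  exact h2 h hh'

end Vale.Agent.P361.LRO.Fin
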