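import Vale.Agent.P361.LRO.Fin.Bridge

/-! # From the bootstrap to the spontaneous magnetization -/

namespace Vale.Agent.P361.LRO

open Matrix Finset Filter Topology

/-- Small densities on large tori at fields `h ≥ n^{-1/4}` give spontaneous magnetization. -/
theorem spontMag_ge_of_rho {β η : ℝ} (hβ : 0 < β) {n0 : ℕ}
    (H : ∀ (n : ℕ) [NeZero n], n0 ≤ n → Odd n → ∀ h : ℝ, (n : ℝ) ^ (-(1 / 4) : ℝ) ≤ h → h ≤ 1 →
      ∀ x : Tor n, rho (edges n) β (fun _ => h) x ≤ η) :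
    1 / 2 - η ≤ Model.spontMag 1 β := by
  refine spontMag_ge 1 hβ (a := fun N : ℕ => ((2 * N + 1 : ℕ) : ℝ) ^ (-(1 / 4) : ℝ)) ?_ ?_
  · have h1 : Tendsto (fun N : ℕ => ((2 * N + 1 : ℕ) : ℝ)) atTop atTop := by
      refine tendsto_natCast_atTop_atTop.comp (tendsto_atTop_mono (fun n => ?_) tendsto_id)
      simp only [id]; omega
    exact (tendsto_rpow_neg_atTop (by norm_num : (0 : ℝ) < 1 / 4)).comp h1
  · filter_upwards [eventually_ge_atTop (max n0 1)] with N hN h hh1 hh2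
    have hN1 : 1 ≤ N := le_trans (le_max_right _ _) hN
    have hN0 : n0 ≤ 2 * N + 1 := by
      have := le_trans (le_max_left _ _) hN
      omega
    have hodd : Odd (2 * N + 1) := ⟨N, rfl⟩
    have h2 := H (2 * N + 1) hN0 hodd h hh1 hh2
    rw [gibbsMagV_eq (by omega) β h]
    have hcard : (Fintype.card (Tor (2 * N + 1)) : ℝ) = (2 * (N : ℝ) + 1) ^ 3 := by
      rw [Fintype.card_fun, ZMod.card, Fintype.card_fin]
      push_cast
      ring
    rw [le_div_iff₀ (by positivity), ← hcard, mul_comm, ← nsmul_eq_mul, ← Finset.card_univ]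
    refine Finset.card_nsmul_le_sum _ _ _ fun x _ => ?_
    linarith [h2 x]

/-- The output of the bootstrap gives long range order. -/
theorem main_of_boot
    (H : ∃ β0 : ℝ, ∀ β : ℝ, β0 ≤ β → ∃ n0 : ℕ, ∀ (n : ℕ) [NeZero n], n0 ≤ n → Odd n →
      ∀ h : ℝ, (n : ℝ) ^ (-(1 / 4) : ℝ) ≤ h → h ≤ 1 →
        ∀ x : Tor n, rho (edges n) β (fun _ => h) x ≤ β ^ (-(1 / 100) : ℝ)) :
    ∃ β0 : ℝ, 0 < β0 ∧ ∀ β : ℝ, β0 ≤ β → 1 / 2 - β ^ (-(1 / 100) : ℝ) ≤ Model.spontMag 1 β := by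
  obtain ⟨β0, H⟩ := H
  refine ⟨max β0 1, lt_max_of_lt_right one_pos, fun β hβ => ?_⟩
  have h1 : β0 ≤ β := le_trans (le_max_left _ _) hβ
  have h2 : 0 < β := lt_of_lt_of_le one_pos (le_trans (le_max_right _ _) hβ)
  obtain ⟨n0, hn0⟩ := H β h1
  exact spontMag_ge_of_rho h2 hn0

end Vale.Agent.P361.LRO
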