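import Vale.Agent.P361.LRO.Fin.Boot

/-! # Symmetries of the Gibbs state: relabelling of the sites, translations of the torus. -/

namespace Vale.Agent.P361.LRO

open Finset Matrix Topology

theorem exp_submatrix_real {m l : Type*} [Fintype m] [DecidableEq m] [Fintype l] [DecidableEq l]
    (e : l ≃ m) (Y : Matrix m m ℝ) :
    NormedSpace.exp (Y.submatrix e e) = (NormedSpace.exp Y).submatrix e e := by
  let _ : NormedRing (Matrix m m ℝ) := Matrix.linftyOpNormedRing
  let _ : NormedAlgebra ℝ (Matrix m m ℝ) := Matrix.linftyOpNormedAlgebra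
  let _ : NormedAlgebra ℚ (Matrix m m ℝ) := NormedAlgebra.restrictScalars ℚ ℝ _
  let _ : NormedRing (Matrix l l ℝ) := Matrix.linftyOpNormedRing
  let f : Matrix m m ℝ →+* Matrix l l ℝ := (Matrix.reindexAlgEquiv ℝ ℝ e.symm).toRingEquiv.toRingHom
  have hf : ∀ Z, f Z = Z.submatrix e e := fun Z => by
    change Matrix.reindexAlgEquiv ℝ ℝ e.symm Z = _
    rw [Matrix.coe_reindexAlgEquiv, Matrix.reindex_apply]
    rfl
  have hc : Continuous f := by
    have : (f : Matrix m m ℝ → Matrix l l ℝ) = fun Z => Z.submatrix e e := funext hf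
    rw [this]
    exact continuous_id.matrix_submatrix e e
  have h := NormedSpace.map_exp f hc Y
  rw [hf, hf] at h
  exact h.symm

section

variable {V W : Type} [Fintype V] [DecidableEq V] [Fintype W] [DecidableEq W]

/-- Relabelling of the configurations. -/
def cfgE (g : V ≃ W) : (V → Fin 2) ≃ (W → Fin 2) := Equiv.arrowCongr g (Equiv.refl (Fin 2))

omit [Fintype V] [DecidableEq V] [Fintype W] [DecidableEq W] in
theorem cfgE_apply (g : V ≃ W) (σ : V → Fin 2) (w : W) : cfgE g σ w = σ (g.symm w) := rfl

omit [Fintype V] [DecidableEq V] [Fintype W] [DecidableEq W] in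
theorem cfgE_apply' (g : V ≃ W) (σ : V → Fin 2) (x : V) : cfgE g σ (g x) = σ x := by
  rw [cfgE_apply, Equiv.symm_apply_apply]

omit [DecidableEq V] [DecidableEq W] in
theorem szM_relabel (g : V ≃ W) (x : V) :
    (szM (g x)).submatrix (cfgE g) (cfgE g) = szM x := by
  ext σ τ
  rw [Matrix.submatrix_apply, szM, szM]
  by_cases h : σ = τ
  · subst h
    rw [Matrix.diagonal_apply_eq, Matrix.diagonal_apply_eq, cfgE_apply']
  · rw [Matrix.diagonal_apply_ne _ h, Matrix.diagonal_apply_ne _ ((cfgE g).injective.ne h)]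

theorem swapM_relabel (g : V ≃ W) (x y : V) :
    (swapM (g x) (g y)).submatrix (cfgE g) (cfgE g) = swapM x y := by
  ext σ τ
  rw [Matrix.submatrix_apply, swapM, swapM, Matrix.of_apply, Matrix.of_apply]
  have h : cfgE g σ = cfgE g τ ∘ Equiv.swap (g x) (g y) ↔ σ = τ ∘ Equiv.swap x y := by
    constructor
    · intro h
      funext v
      have h1 := congrFun h (g v)
      rw [cfgE_apply', Function.comp_apply, g.injective.swap_apply, cfgE_apply'] at h1
      exact h1
    · intro h
      funext w
      obtain ⟨v, rfl⟩ := g.surjective w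
      rw [cfgE_apply', Function.comp_apply, g.injective.swap_apply, cfgE_apply', h]
      rfl
  simp only [h]

theorem ham_relabel (g : V ≃ W) (L : List (V × V)) (h : W → ℝ) :
    (ham (L.map fun e => (g e.1, g e.2)) h).submatrix (cfgE g) (cfgE g) =
      ham L fun x => h (g x) := by
  have h1 : ∀ l : List (V × V),
      (((l.map fun e => (g e.1, g e.2)).map fun e => hM e.1 e.2).sum).submatrix
        (cfgE g) (cfgE g) = (l.map fun e => hM e.1 e.2).sum := by
    intro l
    induction l with
    | nil => rfl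
    | cons e l ih =>
      rw [List.map_cons, List.map_cons, List.sum_cons, List.map_cons, List.sum_cons,
        Matrix.submatrix_add, Pi.add_apply, Pi.add_apply, ih]
      congr 1
      rw [hM, hM, Matrix.submatrix_smul, Pi.smul_apply, Pi.smul_apply, Matrix.submatrix_sub,
        Pi.sub_apply, Pi.sub_apply, swapM_relabel, Matrix.submatrix_one_equiv]
  rw [ham, ham, Matrix.submatrix_sub, Pi.sub_apply, Pi.sub_apply, h1]
  congr 1
  ext σ τ
  rw [Matrix.submatrix_apply, Matrix.sum_apply, Matrix.sum_apply, ← Equiv.sum_comp g]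
  refine Finset.sum_congr rfl fun x _ => ?_
  have h2 := congrFun (congrFun (szM_relabel g x) σ) τ
  rw [Matrix.submatrix_apply] at h2
  rw [Matrix.smul_apply, Matrix.smul_apply, h2]

theorem trace_submatrix_real {m l : Type*} [Fintype m] [Fintype l] (e : l ≃ m)
    (Y : Matrix m m ℝ) : Matrix.trace (Y.submatrix e e) = Matrix.trace Y := by
  simp only [Matrix.trace, Matrix.diag_apply, Matrix.submatrix_apply]
  exact Equiv.sum_comp e (fun i => Y i i)

theorem gib_relabel (g : V ≃ W) (L : List (V × V)) (β : ℝ) (h : W → ℝ)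
    (A : Matrix (W → Fin 2) (W → Fin 2) ℝ) :
    gib (L.map fun e => (g e.1, g e.2)) β h A =
      gib L β (fun x => h (g x)) (A.submatrix (cfgE g) (cfgE g)) := by
  have h1 : NormedSpace.exp (-β • ham L fun x => h (g x)) =
      (NormedSpace.exp (-β • ham (L.map fun e => (g e.1, g e.2)) h)).submatrix
        (cfgE g) (cfgE g) := by
    rw [← exp_submatrix_real, Matrix.submatrix_smul, Pi.smul_apply, Pi.smul_apply, ham_relabel]
  unfold gib
  rw [h1, Matrix.submatrix_mul_equiv, trace_submatrix_real, trace_submatrix_real]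

theorem rho_relabel (g : V ≃ W) (L : List (V × V)) (β : ℝ) (h : W → ℝ) (x : V) :
    rho (L.map fun e => (g e.1, g e.2)) β h (g x) = rho L β (fun x => h (g x)) x := by
  unfold rho
  rw [gib_relabel]
  congr 1
  rw [Matrix.submatrix_smul, Pi.smul_apply, Pi.smul_apply, Matrix.submatrix_sub, Pi.sub_apply,
    Pi.sub_apply, szM_relabel, Matrix.submatrix_one_equiv]

theorem ham_perm {L L' : List (V × V)} (hL : L.Perm L') (h : V → ℝ) : ham L h = ham L' h := by
  unfold ham
  rw [(hL.map fun e : V × V => hM e.1 e.2).sum_eq]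

theorem gib_perm {L L' : List (V × V)} (hL : L.Perm L') (β : ℝ) (h : V → ℝ)
    (A : Matrix (V → Fin 2) (V → Fin 2) ℝ) : gib L β h A = gib L' β h A := by
  unfold gib
  rw [ham_perm hL]

theorem rho_perm {L L' : List (V × V)} (hL : L.Perm L') (β : ℝ) (h : V → ℝ) (x : V) :
    rho L β h x = rho L' β h x := gib_perm hL β h _

end

/-- Translation of the torus. -/
theorem edges_perm (n : ℕ) [NeZero n] (v : Tor n) :
    ((edges n).map fun e => (e.1 + v, e.2 + v)).Perm (edges n) := by
  unfold edges
  rw [List.map_map]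
  let g : Tor n × Fin 3 ≃ Tor n × Fin 3 := Equiv.prodCongr (Equiv.addRight v) (Equiv.refl _)
  have h1 : (((Finset.univ : Finset (Tor n × Fin 3)).toList).map g).Perm
      ((Finset.univ : Finset (Tor n × Fin 3)).toList) := by
    refine (List.perm_ext_iff_of_nodup ?_ (Finset.nodup_toList _)).2 fun z => ?_
    · exact (Finset.nodup_toList _).map g.injective
    · simp only [List.mem_map, Finset.mem_toList, Finset.mem_univ, true_and, iff_true]
      exact g.surjective z
  have h2 : ((fun e : Tor n × Tor n => (e.1 + v, e.2 + v)) ∘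
      fun z : Tor n × Fin 3 => (z.1, z.1 + Pi.single z.2 1)) =
      (fun z : Tor n × Fin 3 => (z.1, z.1 + Pi.single z.2 1)) ∘ g := by
    funext z
    change (z.1 + v, z.1 + Pi.single z.2 1 + v) = (z.1 + v, z.1 + v + Pi.single z.2 1)
    rw [add_right_comm]
  rw [h2, ← List.map_map]
  exact h1.map _

/-- Translation covariance on the torus. -/
theorem rho_translate (n : ℕ) [NeZero n] (β : ℝ) (h : Tor n → ℝ) (v x : Tor n) :
    rho (edges n) β h (x + v) = rho (edges n) β (fun y => h (y + v)) x := by
  have h1 := rho_relabel (Equiv.addRight v) (edges n) β h x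
  rw [← rho_perm (edges_perm n v) β h (x + v)]
  exact h1

theorem gib_translate (n : ℕ) [NeZero n] (β : ℝ) (h : Tor n → ℝ) (v : Tor n)
    (A : Matrix (Tor n → Fin 2) (Tor n → Fin 2) ℝ) :
    gib (edges n) β h A = gib (edges n) β (fun y => h (y + v))
      (A.submatrix (cfgE (Equiv.addRight v)) (cfgE (Equiv.addRight v))) := by
  have h1 := gib_relabel (Equiv.addRight v) (edges n) β h A
  rw [← gib_perm (edges_perm n v) β h A]
  exact h1

end Vale.Agent.P361.LRO
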