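import Vale.Agent.P361.Mag
import Vale.Agent.P361.Model

/-! # From the torus to the free boundary conditions, and the spontaneous magnetization. -/

namespace Vale.Agent.P361.LRO.Fin

open Matrix Filter Topology Finset
open scoped ComplexOrder Kronecker

/-- The discrete torus of side `L`. -/
abbrev Tor (L : ℕ) : Type := Fin 3 → ZMod L

/-- Nearest neighbours on the torus. -/
def torNN {L : ℕ} (x y : Tor L) : Prop :=
  ∃ i : Fin 3, y = x + Pi.single i 1 ∨ x = y + Pi.single i 1

instance {L : ℕ} : DecidableRel (torNN (L := L)) := fun x y => by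
  unfold torNN; infer_instance

section general

variable {V : Type} [Fintype V] [DecidableEq V]

/-- Number of ordered adjacent pairs. -/
noncomputable def cnt (J : V → V → Prop) [DecidableRel J] : ℝ :=
  ∑ x : V, ∑ y : V, if J x y then (1 : ℝ) else 0

/-- The exponent `-β (H - h M)`. -/
noncomputable def ex (n : ℕ) (J : V → V → Prop) [DecidableRel J] (β h : ℝ) : Model.Op n V :=
  -(β : ℂ) • (Model.hamiltonian n J - (h : ℂ) • Model.magnetization n V)

theorem logTr_eq (n : ℕ) (J : V → V → Prop) [DecidableRel J] (β h : ℝ) :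
    Model.logTr n J β h = Real.log (Matrix.trace (NormedSpace.exp (ex n J β h))).re := rfl

theorem tot_eq (n : ℕ) (J : V → V → Prop) [DecidableRel J] (β h c : ℝ) :
    totOp (V := V) (β / 2) c (spin n) (((β * h : ℝ) : ℂ) • spin n 2) J =
      ex n J β h + (((β / 2) * c * cnt J : ℝ) : ℂ) • (1 : Model.Op n V) := by
  have e0 : ∀ (x : V) (A : Matrix (Fin (n + 1)) (Fin (n + 1)) ℂ),
      Model.siteOp x A = siteOpV x A := fun _ _ => rfl
  have e2 : Model.spin n = spin n := rfl
  unfold totOp ex Model.hamiltonian Model.magnetization cnt pairOp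
  simp only [e0, e2, siteOpV_smul]
  have e1 : (∑ x : V, ∑ y : V, if J x y then
      ((c : ℂ) • (1 : Matrix (V → Fin (n + 1)) (V → Fin (n + 1)) ℂ) +
        ∑ a, siteOpV x (spin n a) * siteOpV y (spin n a)) else 0) =
      ((c * ∑ x : V, ∑ y : V, (if J x y then (1 : ℝ) else 0) : ℝ) : ℂ) •
        (1 : Matrix (V → Fin (n + 1)) (V → Fin (n + 1)) ℂ) +
      ∑ x : V, ∑ y : V, if J x y then
        ∑ a, siteOpV x (spin n a) * siteOpV y (spin n a) else 0 := by
    push_cast
    rw [Finset.mul_sum, Finset.sum_smul, ← Finset.sum_add_distrib]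
    refine Finset.sum_congr rfl fun x _ => ?_
    rw [Finset.mul_sum, Finset.sum_smul, ← Finset.sum_add_distrib]
    refine Finset.sum_congr rfl fun y _ => ?_
    split_ifs <;> simp
  rw [e1, ← Finset.smul_sum]
  push_cast
  module

theorem field_isHermitian (n : ℕ) (r : ℝ) : ((r : ℂ) • spin n 2).IsHermitian := by
  rw [Matrix.IsHermitian, Matrix.conjTranspose_smul, spin_isHermitian n 2]
  simp

theorem ex_isHermitian (n : ℕ) (J : V → V → Prop) [DecidableRel J] (hJ : ∀ x, ¬ J x x)
    (β h : ℝ) : (ex n J β h).IsHermitian := by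
  have h1 := tot_eq n J β h 0
  have h2 := totOp_isHermitian (V := V) (β / 2) 0 (spin_isHermitian n)
    (field_isHermitian n (β * h)) J hJ
  rw [h1] at h2
  simpa using h2

/-- Comparison of two interaction graphs. -/
theorem logTr_compare (n : ℕ) {c : ℝ}
    (hc : ((c : ℂ) • (1 : Matrix (Fin (n + 1)) (Fin (n + 1)) ℂ) -
      ∑ a, spin n a * spin n a).PosSemidef)
    (J J' : V → V → Prop) [DecidableRel J] [DecidableRel J'] (hJ' : ∀ x, ¬ J' x x)
    (hsub : ∀ x y, J x y → J' x y) {β : ℝ} (hβ : 0 < β) (h : ℝ) :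
    |Model.logTr n J' β h - Model.logTr n J β h| ≤ β / 2 * c * (cnt J' - cnt J) := by
  have hJ : ∀ x, ¬ J x x := fun x hx => hJ' x (hsub x x hx)
  have hX := totOp_isHermitian (V := V) (β / 2) c (spin_isHermitian n)
    (field_isHermitian n (β * h)) J hJ
  have hX' := totOp_isHermitian (V := V) (β / 2) c (spin_isHermitian n)
    (field_isHermitian n (β * h)) J' hJ'
  set F := (((β * h : ℝ) : ℂ) • spin n 2) with hF
  have hb : (0 : ℂ) ≤ ((β / 2 : ℝ) : ℂ) := by
    rw [Complex.zero_le_real]; positivity
  have hdiff : totOp (V := V) (β / 2) c (spin n) F J' - totOp (β / 2) c (spin n) F J =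
      ((β / 2 : ℝ) : ℂ) • ∑ x : V, ∑ y : V,
        if J' x y ∧ ¬ J x y then pairOp c (spin n) x y else 0 := by
    unfold totOp
    rw [add_sub_add_right_eq_sub, ← smul_sub, ← Finset.sum_sub_distrib]
    congr 1
    refine Finset.sum_congr rfl fun x _ => ?_
    rw [← Finset.sum_sub_distrib]
    refine Finset.sum_congr rfl fun y _ => ?_
    by_cases h1 : J x y
    · simp [h1, hsub x y h1]
    · by_cases h2 : J' x y <;> simp [h1, h2]
  have hcnt : cnt J' - cnt J = ∑ x : V, ∑ y : V, if J' x y ∧ ¬ J x y then (1 : ℝ) else 0 := by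
    unfold cnt
    rw [← Finset.sum_sub_distrib]
    refine Finset.sum_congr rfl fun x _ => ?_
    rw [← Finset.sum_sub_distrib]
    refine Finset.sum_congr rfl fun y _ => ?_
    by_cases h1 : J x y
    · simp [h1, hsub x y h1]
    · by_cases h2 : J' x y <;> simp [h1, h2]
  have hp : (totOp (V := V) (β / 2) c (spin n) F J' -
      totOp (β / 2) c (spin n) F J).PosSemidef := by
    rw [hdiff]
    refine Matrix.PosSemidef.smul ?_ hb
    refine Matrix.posSemidef_sum _ fun x _ => Matrix.posSemidef_sum _ fun y _ => ?_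
    split_ifs with h1
    · refine pairOp_posSemidef (spin_isHermitian n) hc ?_
      rintro rfl
      exact hJ' _ h1.1
    · exact Matrix.PosSemidef.zero
  have hp' : (totOp (V := V) (β / 2) c (spin n) F J +
      ((β * c * (cnt J' - cnt J) : ℝ) : ℂ) • (1 : Matrix (V → Fin (n + 1)) (V → Fin (n + 1)) ℂ) -
      totOp (β / 2) c (spin n) F J').PosSemidef := by
    have e : totOp (V := V) (β / 2) c (spin n) F J +
      ((β * c * (cnt J' - cnt J) : ℝ) : ℂ) • (1 : Matrix (V → Fin (n + 1)) (V → Fin (n + 1)) ℂ) -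
      totOp (β / 2) c (spin n) F J' = ((β / 2 : ℝ) : ℂ) • ∑ x : V, ∑ y : V,
        if J' x y ∧ ¬ J x y then (((2 * c : ℝ) : ℂ) •
          (1 : Matrix (V → Fin (n + 1)) (V → Fin (n + 1)) ℂ) - pairOp c (spin n) x y) else 0 := by
      have e1 : (∑ x : V, ∑ y : V,
        if J' x y ∧ ¬ J x y then (((2 * c : ℝ) : ℂ) •
          (1 : Matrix (V → Fin (n + 1)) (V → Fin (n + 1)) ℂ) - pairOp c (spin n) x y) else 0) =
          (((2 * c * (cnt J' - cnt J) : ℝ) : ℂ) •
            (1 : Matrix (V → Fin (n + 1)) (V → Fin (n + 1)) ℂ)) -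
          ∑ x : V, ∑ y : V, if J' x y ∧ ¬ J x y then pairOp c (spin n) x y else 0 := by
        rw [hcnt]
        push_cast
        rw [Finset.mul_sum, Finset.sum_smul, ← Finset.sum_sub_distrib]
        refine Finset.sum_congr rfl fun x _ => ?_
        rw [Finset.mul_sum, Finset.sum_smul, ← Finset.sum_sub_distrib]
        refine Finset.sum_congr rfl fun y _ => ?_
        split_ifs <;> simp
      rw [e1, smul_sub, ← hdiff]
      push_cast
      module
    rw [e]
    refine Matrix.PosSemidef.smul ?_ hb
    refine Matrix.posSemidef_sum _ fun x _ => Matrix.posSemidef_sum _ fun y _ => ?_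
    split_ifs with h1
    · refine pairOp_upper (spin_isHermitian n) hc ?_
      rintro rfl
      exact hJ' _ h1.1
    · exact Matrix.PosSemidef.zero
  have m1 := trace_exp_mono hX hX' hp
  have hone : (((β * c * (cnt J' - cnt J) : ℝ) : ℂ) •
      (1 : Matrix (V → Fin (n + 1)) (V → Fin (n + 1)) ℂ)).IsHermitian := by
    rw [Matrix.IsHermitian, Matrix.conjTranspose_smul, Matrix.conjTranspose_one]
    simp
  have m2 := trace_exp_mono hX' (hX.add hone) hp'
  rw [trace_exp_add_smul_one] at m2
  rw [tot_eq n J β h c, tot_eq n J' β h c, trace_exp_add_smul_one, trace_exp_add_smul_one] at m1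
  rw [tot_eq n J β h c, tot_eq n J' β h c, trace_exp_add_smul_one, trace_exp_add_smul_one] at m2
  have p1 := trace_exp_pos (ex_isHermitian n J hJ β h)
  have p2 := trace_exp_pos (ex_isHermitian n J' hJ' β h)
  have l1 := Real.log_le_log (by positivity) m1
  have l2 := Real.log_le_log (by positivity) m2
  rw [Real.log_mul (Real.exp_pos _).ne' p1.ne', Real.log_mul (Real.exp_pos _).ne' p2.ne',
    Real.log_exp, Real.log_exp] at l1
  rw [Real.log_mul (Real.exp_pos _).ne' p2.ne',
    Real.log_mul (Real.exp_pos _).ne' (by positivity),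
    Real.log_mul (Real.exp_pos _).ne' p1.ne', Real.log_exp, Real.log_exp, Real.log_exp] at l2
  rw [logTr_eq, logTr_eq, abs_le]
  constructor <;> linarith

/-- Total magnetization of the finite system in the Gibbs state. -/
noncomputable def gm (n : ℕ) (J : V → V → Prop) [DecidableRel J] (β h : ℝ) : ℝ :=
  (trace (NormedSpace.exp (ex n J β h) * Model.magnetization n V)).re /
    (trace (NormedSpace.exp (ex n J β h))).re

theorem mag_isHermitian (n : ℕ) : (Model.magnetization n V).IsHermitian := by
  rw [Matrix.IsHermitian, Model.magnetization, Matrix.conjTranspose_sum]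
  refine Finset.sum_congr rfl fun x _ => ?_
  exact siteOpV_isHermitian x (spin_isHermitian n 2)

theorem ex_shift (n : ℕ) (J : V → V → Prop) [DecidableRel J] (β h h' : ℝ) :
    ex n J β h' = ex n J β h + ((β * (h' - h) : ℝ) : ℂ) • Model.magnetization n V := by
  unfold ex
  push_cast
  module

/-- Supporting line inequality. -/
theorem logTr_support (n : ℕ) (J : V → V → Prop) [DecidableRel J] (hJ : ∀ x, ¬ J x x)
    (β h h' : ℝ) :
    Model.logTr n J β h + β * (h' - h) * gm n J β h ≤ Model.logTr n J β h' := by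
  have hY : (((β * (h' - h) : ℝ) : ℂ) • Model.magnetization n V).IsHermitian := by
    rw [Matrix.IsHermitian, Matrix.conjTranspose_smul, mag_isHermitian n]
    simp
  have h1 := peierls_bogoliubov (ex_isHermitian n J hJ β h) hY
  rw [← ex_shift] at h1
  rw [logTr_eq, logTr_eq]
  refine le_trans (le_of_eq ?_) h1
  congr 1
  rw [Matrix.mul_smul, Matrix.trace_smul, smul_eq_mul, Complex.re_ofReal_mul]
  unfold gm
  ring

theorem logTr_relabel {W : Type} [Fintype W] [DecidableEq W] (g : V ≃ W) (n : ℕ)
    (J : W → W → Prop) [DecidableRel J] (β h : ℝ) :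
    Model.logTr n (fun x y : V => J (g x) (g y)) β h = Model.logTr n J β h := by
  have h1 := tot_eq n J β h 0
  have h2 := tot_eq n (fun x y : V => J (g x) (g y)) β h 0
  have h3 := logZ_relabel g (β / 2) 0 (spin n) (((β * h : ℝ) : ℂ) • spin n 2) J
  unfold logZ at h3
  rw [h1, h2] at h3
  simp only [mul_zero, zero_mul, Complex.ofReal_zero, zero_smul, add_zero] at h3
  exact h3

end general

end Vale.Agent.P361.LRO.Fin
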