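import Vale.Agent.P361.LRO.Fin.GenExp

/-!
Periodic boundary conditions: the pressure on the torus `(ℤ/(2N+1))³` has the same limit as the
pressure with free boundary conditions.
-/

namespace Vale.Agent.P361.LRO

open Matrix Filter Topology Finset
open scoped ComplexOrder

/-- Nearest neighbours on the torus of side `L`. -/
def torusAdj (L : ℕ) (x y : Fin 3 → ZMod L) : Prop :=
  ∃ i, (x i = y i + 1 ∨ y i = x i + 1) ∧ ∀ j, j ≠ i → x j = y j

instance (L : ℕ) : DecidableRel (torusAdj L) := fun x y => by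
  unfold torusAdj; infer_instance

theorem torusAdj_irrefl {L : ℕ} (hL : 1 < L) (x : Fin 3 → ZMod L) : ¬ torusAdj L x x := by
  have : Fact (1 < L) := ⟨hL⟩
  rintro ⟨i, h | h, -⟩ <;> simp at h

theorem torusAdj_symm {L : ℕ} {x y : Fin 3 → ZMod L} (h : torusAdj L x y) : torusAdj L y x := by
  obtain ⟨i, h1, h2⟩ := h
  exact ⟨i, h1.symm, fun j hj => (h2 j hj).symm⟩

/-- The torus coordinate map on the box. -/
def boxCast (N : ℕ) (x : Model.box N) : Fin 3 → ZMod (2 * N + 1) :=
  fun i => ((x.1 i : ℤ) : ZMod (2 * N + 1))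

theorem mem_boxM {N : ℕ} {x : Fin 3 → ℤ} : x ∈ Model.box N ↔ ∀ i, -(N : ℤ) ≤ x i ∧ x i ≤ N := by
  simp only [Model.box, Finset.mem_Icc, Pi.le_def]
  exact ⟨fun h i => ⟨h.1 i, h.2 i⟩, fun h => ⟨fun i => (h i).1, fun i => (h i).2⟩⟩

theorem cast_eq_imp {L : ℕ} {a b : ℤ} (h : ((a : ℤ) : ZMod L) = ((b : ℤ) : ZMod L))
    (hab : |a - b| < L) : a = b := by
  rw [← sub_eq_zero, ← Int.cast_sub, ZMod.intCast_zmod_eq_zero_iff_dvd] at h
  have := Int.eq_zero_of_abs_lt_dvd h hab
  linarith

theorem boxCast_injective (N : ℕ) : Function.Injective (boxCast N) := by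
  intro x y hxy
  apply Subtype.ext
  funext i
  have hx := mem_boxM.1 x.2 i
  have hy := mem_boxM.1 y.2 i
  refine cast_eq_imp (congrFun hxy i) ?_
  rw [abs_lt]
  push_cast
  constructor <;> linarith [hx.1, hx.2, hy.1, hy.2]

theorem card_boxM (N : ℕ) : (Model.box N).card = (2 * N + 1) ^ 3 := card_box N

theorem boxCast_bijective (N : ℕ) : Function.Bijective (boxCast N) := by
  rw [Fintype.bijective_iff_injective_and_card]
  refine ⟨boxCast_injective N, ?_⟩
  rw [Fintype.card_coe, card_boxM, Fintype.card_fun, ZMod.card, Fintype.card_fin]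

noncomputable def boxEquiv (N : ℕ) : Model.box N ≃ (Fin 3 → ZMod (2 * N + 1)) :=
  Equiv.ofBijective (boxCast N) (boxCast_bijective N)

theorem boxEquiv_apply (N : ℕ) (x : Model.box N) (i : Fin 3) :
    boxEquiv N x i = ((x.1 i : ℤ) : ZMod (2 * N + 1)) := rfl

theorem nn_iff {x y : Fin 3 → ℤ} : ∑ i, |x i - y i| = 1 ↔
    ∃ i, (x i = y i + 1 ∨ y i = x i + 1) ∧ ∀ j, j ≠ i → x j = y j := by
  constructor
  · intro h
    by_contra hcon
    push Not at hcon
    have hne : ∃ i, x i ≠ y i := by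
      by_contra h2
      push Not at h2
      rw [Finset.sum_eq_zero fun i _ => by rw [h2 i, sub_self, abs_zero]] at h
      norm_num at h
    obtain ⟨i, hi⟩ := hne
    have h1 : 1 ≤ |x i - y i| := Int.one_le_abs (sub_ne_zero.2 hi)
    have h3 : ∑ j ∈ Finset.univ.erase i, |x j - y j| = 0 := by
      have h4 := Finset.add_sum_erase Finset.univ (fun j => |x j - y j|) (Finset.mem_univ i)
      have h5 : 0 ≤ ∑ j ∈ Finset.univ.erase i, |x j - y j| :=
        Finset.sum_nonneg fun j _ => abs_nonneg _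
      linarith
    have h6 : |x i - y i| = 1 := by
      have h4 := Finset.add_sum_erase Finset.univ (fun j => |x j - y j|) (Finset.mem_univ i)
      linarith
    have h7 : ∀ j, j ≠ i → x j = y j := by
      intro j hj
      have := (Finset.sum_eq_zero_iff_of_nonneg fun j _ => abs_nonneg _).1 h3 j
        (Finset.mem_erase.2 ⟨hj, Finset.mem_univ j⟩)
      have := abs_eq_zero.1 this
      linarith
    obtain ⟨j, hj, hj2⟩ := hcon i (by
      rcases (abs_eq (by norm_num : (0 : ℤ) ≤ 1)).1 h6 with h | h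
      · left; linarith
      · right; linarith)
    exact hj2 (h7 j hj)
  · rintro ⟨i, h1, h2⟩
    rw [← Finset.add_sum_erase Finset.univ (fun j => |x j - y j|) (Finset.mem_univ i),
      Finset.sum_eq_zero fun j hj => by
        rw [h2 j (Finset.ne_of_mem_erase hj), sub_self, abs_zero]]
    rcases h1 with h1 | h1
    · rw [h1]; norm_num
    · rw [h1]; norm_num

theorem free_imp_torus {N : ℕ} (x y : Model.box N) (h : ∑ i, |x.1 i - y.1 i| = 1) :
    torusAdj (2 * N + 1) (boxEquiv N x) (boxEquiv N y) := by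
  obtain ⟨i, h1, h2⟩ := nn_iff.1 h
  refine ⟨i, ?_, fun j hj => ?_⟩
  · rcases h1 with h1 | h1
    · left; rw [boxEquiv_apply, boxEquiv_apply, h1]; push_cast; ring
    · right; rw [boxEquiv_apply, boxEquiv_apply, h1]; push_cast; ring
  · rw [boxEquiv_apply, boxEquiv_apply, h2 j hj]

/-- If `x` is not on the boundary, torus neighbours are free neighbours. -/
theorem torus_imp_free {N : ℕ} (hN : 1 ≤ N) (x y : Model.box N)
    (hx : ∀ i, -(N : ℤ) + 1 ≤ x.1 i ∧ x.1 i ≤ N - 1)
    (h : torusAdj (2 * N + 1) (boxEquiv N x) (boxEquiv N y)) : ∑ i, |x.1 i - y.1 i| = 1 := by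
  obtain ⟨i, h1, h2⟩ := h
  refine nn_iff.2 ⟨i, ?_, fun j hj => ?_⟩
  · have hxi := hx i
    have hyi := mem_boxM.1 y.2 i
    rcases h1 with h1 | h1
    · left
      rw [boxEquiv_apply, boxEquiv_apply] at h1
      have h3 : ((x.1 i : ℤ) : ZMod (2 * N + 1)) = ((y.1 i + 1 : ℤ) : ZMod (2 * N + 1)) := by
        rw [h1]; push_cast; ring
      refine cast_eq_imp h3 ?_
      rw [abs_lt]; push_cast
      constructor <;> linarith [hxi.1, hxi.2, hyi.1, hyi.2]
    · right
      rw [boxEquiv_apply, boxEquiv_apply] at h1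
      have h3 : ((y.1 i : ℤ) : ZMod (2 * N + 1)) = ((x.1 i + 1 : ℤ) : ZMod (2 * N + 1)) := by
        rw [h1]; push_cast; ring
      refine cast_eq_imp h3 ?_
      rw [abs_lt]; push_cast
      constructor <;> linarith [hxi.1, hxi.2, hyi.1, hyi.2]
  · have hxi := mem_boxM.1 x.2 j
    have hyi := mem_boxM.1 y.2 j
    have h3 : ((x.1 j : ℤ) : ZMod (2 * N + 1)) = ((y.1 j : ℤ) : ZMod (2 * N + 1)) := h2 j hj
    refine cast_eq_imp h3 ?_
    rw [abs_lt]; push_cast
    constructor <;> linarith [hxi.1, hxi.2, hyi.1, hyi.2]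

theorem torus_degree {L : ℕ} [NeZero L] (x : Fin 3 → ZMod L) :
    (Finset.univ.filter fun y => torusAdj L x y).card ≤ 6 := by
  have hsub : (Finset.univ.filter fun y => torusAdj L x y) ⊆
      (Finset.univ : Finset (Fin 3 × Bool)).image
        (fun p => Function.update x p.1 (if p.2 then x p.1 + 1 else x p.1 - 1)) := by
    intro y hy
    rw [Finset.mem_filter] at hy
    obtain ⟨i, h1, h2⟩ := hy.2
    rw [Finset.mem_image]
    rcases h1 with h1 | h1
    · refine ⟨(i, false), Finset.mem_univ _, ?_⟩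
      funext j
      by_cases hj : j = i
      · subst hj; simp [h1]
      · simp only [Bool.false_eq_true, if_false]
        rw [Function.update_of_ne hj]; exact h2 j hj
    · refine ⟨(i, true), Finset.mem_univ _, ?_⟩
      funext j
      by_cases hj : j = i
      · subst hj; simp [h1]
      · simp only [if_true]
        rw [Function.update_of_ne hj]; exact h2 j hj
  calc _ ≤ _ := Finset.card_le_card hsub
    _ ≤ (Finset.univ : Finset (Fin 3 × Bool)).card := Finset.card_image_le
    _ = 6 := by simp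

/-- The torus adjacency transported to the box. -/
def torusBox (N : ℕ) (x y : Model.box N) : Prop :=
  torusAdj (2 * N + 1) (boxEquiv N x) (boxEquiv N y)

noncomputable instance (N : ℕ) : DecidableRel (torusBox N) := fun x y => by
  unfold torusBox; infer_instance

theorem card_boundary (N : ℕ) (hN : 1 ≤ N) :
    ((Finset.univ.filter fun x : Model.box N =>
      ¬ ∀ i, -(N : ℤ) + 1 ≤ x.1 i ∧ x.1 i ≤ N - 1).card : ℝ) ≤ 3 * 2 * (2 * N + 1) ^ 2 := by
  obtain ⟨M, rfl⟩ : ∃ M, N = M + 1 := ⟨N - 1, by omega⟩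
  have h1 : (Finset.univ.filter fun x : Model.box (M + 1) =>
      ∀ i, -((M + 1 : ℕ) : ℤ) + 1 ≤ x.1 i ∧ x.1 i ≤ ((M + 1 : ℕ) : ℤ) - 1).card =
      (Model.box M).card := by
    refine Finset.card_bij (fun x _ => x.1) ?_ ?_ ?_
    · intro x hx
      rw [Finset.mem_filter] at hx
      rw [mem_boxM]
      intro i
      have := hx.2 i
      push_cast at this
      constructor <;> linarith [this.1, this.2]
    · intro x _ y _ h
      exact Subtype.ext h
    · intro x hx
      rw [mem_boxM] at hx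
      refine ⟨⟨x, mem_boxM.2 fun i => ?_⟩, ?_, rfl⟩
      · have := hx i
        push_cast
        constructor <;> linarith [this.1, this.2]
      · rw [Finset.mem_filter]
        refine ⟨Finset.mem_univ _, fun i => ?_⟩
        have := hx i
        push_cast
        constructor <;> linarith [this.1, this.2]
  have h2 := Finset.card_filter_add_card_filter_not (s := (Finset.univ : Finset (Model.box (M + 1))))
    (fun x : Model.box (M + 1) =>
      ∀ i, -((M + 1 : ℕ) : ℤ) + 1 ≤ x.1 i ∧ x.1 i ≤ ((M + 1 : ℕ) : ℤ) - 1)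
  rw [h1, Finset.card_univ, Fintype.card_coe, card_boxM, card_boxM] at h2
  have h3 : ((2 * M + 1) ^ 3 : ℝ) + ((Finset.univ.filter fun x : Model.box (M + 1) =>
      ¬ ∀ i, -((M + 1 : ℕ) : ℤ) + 1 ≤ x.1 i ∧ x.1 i ≤ ((M + 1 : ℕ) : ℤ) - 1).card : ℝ) =
      (2 * (M + 1) + 1) ^ 3 := by
    exact_mod_cast h2
  push_cast at h3 ⊢
  nlinarith [h3, (Nat.cast_nonneg M : (0 : ℝ) ≤ M)]

theorem pairs_torus_sub (N : ℕ) (hN : 1 ≤ N) :
    pairsV (torusBox N) - pairsV (fun x y : Model.box N => ∑ i, |x.1 i - y.1 i| = 1) ≤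
      36 * (2 * N + 1) ^ 2 := by
  classical
  unfold pairsV
  rw [← Finset.sum_sub_distrib]
  have hstep : ∀ x : Model.box N, (∑ y : Model.box N, if torusBox N x y then (1 : ℝ) else 0) -
      (∑ y : Model.box N, if ∑ i, |x.1 i - y.1 i| = 1 then (1 : ℝ) else 0) ≤
      if ¬ ∀ i, -(N : ℤ) + 1 ≤ x.1 i ∧ x.1 i ≤ N - 1 then (6 : ℝ) else 0 := by
    intro x
    by_cases hx : ∀ i, -(N : ℤ) + 1 ≤ x.1 i ∧ x.1 i ≤ N - 1
    · rw [if_neg (not_not.2 hx), sub_nonpos]
      refine Finset.sum_le_sum fun y _ => ?_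
      by_cases h : torusBox N x y
      · rw [if_pos h, if_pos (torus_imp_free hN x y hx h)]
      · rw [if_neg h]; split_ifs <;> norm_num
    · rw [if_pos hx]
      have h1 : (∑ y : Model.box N, if torusBox N x y then (1 : ℝ) else 0) ≤ 6 := by
        rw [Finset.sum_boole]
        have h2 : (Finset.univ.filter fun y => torusBox N x y).card =
            (Finset.univ.filter fun y => torusAdj (2 * N + 1) (boxEquiv N x) y).card := by
          refine Finset.card_bij (fun y _ => boxEquiv N y) ?_ ?_ ?_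
          · intro y hy
            rw [Finset.mem_filter] at hy ⊢
            exact ⟨Finset.mem_univ _, hy.2⟩
          · intro y _ z _ h
            exact (boxEquiv N).injective h
          · intro y hy
            refine ⟨(boxEquiv N).symm y, ?_, by simp⟩
            rw [Finset.mem_filter] at hy ⊢
            refine ⟨Finset.mem_univ _, ?_⟩
            unfold torusBox
            simpa using hy.2
        rw [h2]
        exact_mod_cast torus_degree _
      have h2 : (0 : ℝ) ≤ ∑ y : Model.box N, if ∑ i, |x.1 i - y.1 i| = 1 then (1 : ℝ) else 0 :=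
        Finset.sum_nonneg fun y _ => by split_ifs <;> norm_num
      linarith
  refine (Finset.sum_le_sum fun x _ => hstep x).trans ?_
  rw [← Finset.sum_filter, Finset.sum_const, nsmul_eq_mul]
  have := card_boundary N hN
  nlinarith [this]

/-- Pressure with periodic boundary conditions. -/
noncomputable def pressTorus (n N : ℕ) (β h : ℝ) : ℝ :=
  (β * (2 * N + 1) ^ 3)⁻¹ * Model.logTr n (torusAdj (2 * N + 1)) β h

theorem pressTorus_sub_le (n : ℕ) : ∃ C : ℝ, 0 ≤ C ∧ ∀ (N : ℕ), 1 ≤ N → ∀ β : ℝ, 0 < β → ∀ h : ℝ,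
    |pressTorus n N β h - Model.finPressure n N β h| ≤ C / (2 * N + 1) := by
  obtain ⟨c, hc0, hc⟩ := exists_upper_bound (X := ∑ a, spin n a * spin n a) (by
    rw [Matrix.IsHermitian, Matrix.conjTranspose_sum]
    refine Finset.sum_congr rfl fun a _ => ?_
    rw [Matrix.conjTranspose_mul, spin_isHermitian n a])
  refine ⟨18 * c, by positivity, fun N hN β hβ h => ?_⟩
  have hirr : ∀ x : Model.box N, ¬ (∑ i, |x.1 i - x.1 i| = 1) := by
    intro x hx
    simp at hx
  have hirr' : ∀ x : Model.box N, ¬ torusBox N x x := fun x =>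
    torusAdj_irrefl (by omega) _
  have h1 := logTr_mono_pairs n hc (fun x y : Model.box N => ∑ i, |x.1 i - y.1 i| = 1)
    (torusBox N) hirr hirr' (fun x y hxy => free_imp_torus x y hxy) hβ.le h
  have h2 : Model.logTr n (torusBox N) β h = Model.logTr n (torusAdj (2 * N + 1)) β h :=
    logTr_relabel (boxEquiv N) n (torusAdj (2 * N + 1)) (torusAdj_irrefl (by omega)) β h
  have h3 := pairs_torus_sub N hN
  rw [h2] at h1
  have hcard : ((Model.box N).card : ℝ) = (2 * N + 1) ^ 3 := by
    rw [card_boxM]; push_cast; ring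
  unfold pressTorus Model.finPressure
  rw [hcard, ← mul_sub, abs_mul, abs_of_pos (by positivity : (0 : ℝ) < (β * (2 * N + 1) ^ 3)⁻¹)]
  have h4 : |Model.logTr n (torusAdj (2 * N + 1)) β h -
      Model.logTr n (fun x y : Model.box N => ∑ i, |x.1 i - y.1 i| = 1) β h| ≤
      (β / 2) * c * (36 * (2 * N + 1) ^ 2) :=
    h1.trans (mul_le_mul_of_nonneg_left h3 (by positivity))
  refine (mul_le_mul_of_nonneg_left h4 (by positivity)).trans (le_of_eq ?_)
  field_simp
  ring

/-- The pressure with periodic boundary conditions converges to `Model.pressure`. -/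
theorem pressTorus_tendsto (n : ℕ) {β : ℝ} (hβ : 0 < β) (h : ℝ) :
    Tendsto (fun N : ℕ => pressTorus n N β h) atTop (𝓝 (Model.pressure n β h)) := by
  obtain ⟨C, hC, hb⟩ := pressTorus_sub_le n
  have h1 : Tendsto (fun N : ℕ => Model.finPressure n N β h) atTop
      (𝓝 (Model.pressure n β h)) := pressure_tendsto n hβ h
  have h2 : Tendsto (fun N : ℕ => C / (2 * (N : ℝ) + 1)) atTop (𝓝 0) := by
    refine Tendsto.div_atTop tendsto_const_nhds ?_
    exact tendsto_atTop_add_const_right _ _
      (Tendsto.const_mul_atTop (by norm_num) tendsto_natCast_atTop_atTop)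
  have h3 : Tendsto (fun N : ℕ => pressTorus n N β h - Model.finPressure n N β h) atTop
      (𝓝 0) := by
    refine squeeze_zero_norm' ?_ h2
    filter_upwards [eventually_ge_atTop 1] with N hN
    exact hb N hN β hβ h
  have h4 := h3.add h1
  simpa using h4

/-- Support line inequality for the torus pressure. -/
theorem pressTorus_support (n N : ℕ) (hN : 1 ≤ N) {β : ℝ} (hβ : 0 < β) (h h' : ℝ) :
    pressTorus n N β h + (h' - h) * (gibbsMagV n (torusAdj (2 * N + 1)) β h / (2 * N + 1) ^ 3) ≤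
      pressTorus n N β h' := by
  have h1 := logTr_support n (torusAdj (2 * N + 1)) (torusAdj_irrefl (by omega)) β h h'
  have h2 := mul_le_mul_of_nonneg_left h1 (a := (β * (2 * (N : ℝ) + 1) ^ 3)⁻¹) (by positivity)
  unfold pressTorus
  refine le_trans (le_of_eq ?_) h2
  field_simp

/-- If the torus magnetization per site at every field `h ∈ [a_N, 1]`, `a_N → 0`, is at least
`m₀` for all large `N`, then the spontaneous magnetization is at least `m₀`. -/
theorem spontMag_ge (n : ℕ) {β : ℝ} (hβ : 0 < β) {m₀ : ℝ} {a : ℕ → ℝ}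
    (ha : Tendsto a atTop (𝓝 0))
    (H : ∀ᶠ N : ℕ in atTop, ∀ h : ℝ, a N ≤ h → h ≤ 1 →
      m₀ ≤ gibbsMagV n (torusAdj (2 * N + 1)) β h / (2 * N + 1) ^ 3) :
    m₀ ≤ Model.spontMag n β := by
  have key : ∀ h₁ h₂ : ℝ, 0 < h₁ → h₁ ≤ h₂ → h₂ ≤ 1 →
      Model.pressure n β h₁ + (h₂ - h₁) * m₀ ≤ Model.pressure n β h₂ := by
    intro h₁ h₂ h0 h12 h21
    have t1 := (pressTorus_tendsto n hβ h₁).add_const ((h₂ - h₁) * m₀)
    have t2 := pressTorus_tendsto n hβ h₂
    refine le_of_tendsto_of_tendsto t1 t2 ?_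
    filter_upwards [H, eventually_ge_atTop 1, (tendsto_order.1 ha).2 h₁ h0] with N hN hN1 haN
    have h3 := pressTorus_support n N hN1 hβ h₁ h₂
    have h4 := hN h₁ haN.le (h12.trans h21)
    have h5 := mul_le_mul_of_nonneg_left h4 (by linarith : (0 : ℝ) ≤ h₂ - h₁)
    linarith
  have hconv : ConvexOn ℝ Set.univ (Model.pressure n β) := pressure_convex n hβ
  have hcont : Continuous (Model.pressure n β) := by
    have := hconv.continuousOn isOpen_univ
    rwa [continuousOn_univ] at this
  have key0 : ∀ h₂ : ℝ, 0 < h₂ → h₂ ≤ 1 →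
      Model.pressure n β 0 + h₂ * m₀ ≤ Model.pressure n β h₂ := by
    intro h₂ h20 h21
    have t1 : Tendsto (fun h₁ => Model.pressure n β h₁ + (h₂ - h₁) * m₀) (𝓝[>] 0)
        (𝓝 (Model.pressure n β 0 + (h₂ - 0) * m₀)) := by
      have : Continuous fun h₁ => Model.pressure n β h₁ + (h₂ - h₁) * m₀ := by fun_prop
      exact this.continuousWithinAt.tendsto
    rw [sub_zero] at t1
    refine le_of_tendsto t1 ?_
    filter_upwards [Ioc_mem_nhdsGT h20] with h₁ hh
    exact key h₁ h₂ hh.1 hh.2 h21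
  have hder : HasDerivWithinAt (Model.pressure n β) (Model.spontMag n β) (Set.Ioi 0) 0 :=
    spontMag_hasDeriv n hβ
  rw [hasDerivWithinAt_iff_tendsto_slope' (by simp)] at hder
  refine ge_of_tendsto hder ?_
  filter_upwards [Ioc_mem_nhdsGT (zero_lt_one' ℝ)] with h hh
  rw [slope_def_field, sub_zero, le_div_iff₀ hh.1]
  linarith [key0 h hh.1 hh.2]

end Vale.Agent.P361.LRO
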